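import Vale.Agent.P245.Step

/-!
Uniform bounds for the fibre covariances and a Bessel inequality for Gaussian averages,
used for the improved Lichnerowicz inequality.
-/

open MeasureTheory Real Filter Set
open scoped Topology RealInnerProductSpace

namespace Vale.Agent.P245N.Lichn

open Vale.Agent.P245

variable {n : ℕ}

/-- Component of the fibre covariance. -/
noncomputable def cvk (T : ℝ) (μ : Measure (Euc n)) (g : Euc n → ℝ) (v θ : Euc n) : ℝ :=
  av T μ (fun x => g x * ⟪v, x⟫) θ - av T μ g θ * av T μ (fun x => ⟪v, x⟫) θ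

/-- Gradient of `cvk`. -/
noncomputable def cgrad (T : ℝ) (μ : Measure (Euc n)) (g : Euc n → ℝ) (v θ : Euc n) : Euc n :=
  cov T μ (fun x => g x * ⟪v, x⟫) θ
    - (av T μ g θ • cov T μ (fun x => ⟪v, x⟫) θ + av T μ (fun x => ⟪v, x⟫) θ • cov T μ g θ)

/-- A Lipschitz bound from a bound on the gradient. -/
lemma lip_of_grad {f : Euc n → ℝ} {f' : Euc n → Euc n} (hf : ∀ x, HasFDerivAt f (innerSL ℝ (f' x)) x)
    {M : ℝ} (hM : ∀ x, ‖f' x‖ ≤ M) (x y : Euc n) : |f y - f x| ≤ M * ‖y - x‖ := by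
  have h := convex_univ.norm_image_sub_le_of_norm_hasFDerivWithin_le (f := f) (C := M)
    (fun z _ => (hf z).hasFDerivWithinAt) (fun z _ => by rw [innerSL_apply_norm]; exact hM z)
    (mem_univ x) (mem_univ y)
  simpa using h

/-- First-order Taylor bound for a Lipschitz gradient. -/
lemma taylor1 {f : Euc n → ℝ} {f' : Euc n → Euc n} (hf : ∀ x, HasFDerivAt f (innerSL ℝ (f' x)) x)
    {L : ℝ} (hL0 : 0 ≤ L) (hL : ∀ x y, ‖f' y - f' x‖ ≤ L * ‖y - x‖) (z d : Euc n) :
    |f (z + d) - f z - ⟪f' z, d⟫| ≤ L * ‖d‖ ^ 2 := by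
  have h := (convex_closedBall z ‖d‖).norm_image_sub_le_of_norm_hasFDerivWithin_le' (f := f)
    (φ := innerSL ℝ (f' z)) (C := L * ‖d‖) (fun y _ => (hf y).hasFDerivWithinAt) (fun y hy => by
      rw [← map_sub, innerSL_apply_norm]
      exact (hL z y).trans (mul_le_mul_of_nonneg_left (by simpa [dist_eq_norm] using hy) hL0))
    (Metric.mem_closedBall_self (norm_nonneg d)) (y := z + d) (by simp [dist_eq_norm])
  simp only [add_sub_cancel_left, innerSL_apply_apply, norm_eq_abs] at h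
  linarith

/-- Mean norm of a standard Gaussian vector. -/
noncomputable def mg (n : ℕ) : ℝ := ∫ G : Euc n, ‖G‖ ∂(gam n)

lemma mg_nonneg : 0 ≤ mg n := integral_nonneg fun _ => norm_nonneg _

lemma integrable_norm_gam : Integrable (fun G : Euc n => ‖G‖) (gam n) := by
  refine (expInt_gam (n := n) 1).mono' (by fun_prop) (Eventually.of_forall fun G => ?_)
  rw [norm_eq_abs, abs_of_nonneg (norm_nonneg _), one_mul]
  linarith [add_one_le_exp ‖G‖]

/-- A Gaussian average of a Lipschitz map is close to its value at the base point. -/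
lemma norm_gint_sub_le {V : Type*} [NormedAddCommGroup V] [NormedSpace ℝ V] [CompleteSpace V]
    {f : Euc n → V} (hc : Continuous f) {B L : ℝ} (hB : ∀ z, ‖f z‖ ≤ B) (hL0 : 0 ≤ L)
    (hL : ∀ x y, ‖f y - f x‖ ≤ L * ‖y - x‖) (θ : Euc n) {s R : ℝ} (hs : 0 ≤ s) (hs1 : s ≤ 1)
    (hR : 0 ≤ R) {x : Euc n} (hx : ‖x‖ ≤ R) :
    ‖(∫ G, f (θ + pt s x G) ∂(gam n)) - f θ‖ ≤ L * (R + mg n) * s := by
  have hi : Integrable (fun G => f (θ + pt s x G)) (gam n) :=
    Integrable.of_bound (hc.comp (continuous_const.add (continuous_pt s x))).aestronglyMeasurable B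
      (Eventually.of_forall fun G => hB _)
  have e : (∫ G, f (θ + pt s x G) ∂(gam n)) - f θ = ∫ G, (f (θ + pt s x G) - f θ) ∂(gam n) := by
    rw [integral_sub hi (integrable_const _), integral_const, probReal_univ, one_smul]
  rw [e]
  have hig : Integrable (fun G : Euc n => L * (s ^ 2 * R + s * ‖G‖)) (gam n) :=
    ((integrable_const _).add (integrable_norm_gam.const_mul s)).const_mul L
  refine (norm_integral_le_of_norm_le hig (Eventually.of_forall fun G => ?_)).trans ?_
  · refine (hL θ _).trans (mul_le_mul_of_nonneg_left ?_ hL0)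
    rw [add_sub_cancel_left]
    refine (norm_add_le _ _).trans ?_
    rw [norm_smul, norm_smul, norm_eq_abs, norm_eq_abs, abs_of_nonneg (sq_nonneg s), abs_of_nonneg hs]
    gcongr
  · rw [integral_const_mul, integral_add (integrable_const _) (integrable_norm_gam.const_mul s),
      integral_const, probReal_univ, one_smul, integral_const_mul, mul_assoc, mg]
    refine mul_le_mul_of_nonneg_left ?_ hL0
    have : s ^ 2 * R ≤ s * R := mul_le_mul_of_nonneg_right (by nlinarith) hR
    linarith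

section

variable {μ : Measure (Euc n)} [IsProbabilityMeasure μ] {R B T : ℝ}

lemma abs_inner_ball_le {v : Euc n} (hv : ‖v‖ ≤ 1) (hR : 0 ≤ R) {x : Euc n} (hx : ‖x‖ ≤ R) :
    |⟪v, x⟫| ≤ R :=
  (abs_real_inner_le_norm v x).trans ((mul_le_mul hv hx (norm_nonneg _) zero_le_one).trans_eq (one_mul R))

lemma abs_mul_inner_ball_le {g : Euc n → ℝ} (hb : ∀ x, ‖x‖ ≤ R → |g x| ≤ B) {v : Euc n} (hv : ‖v‖ ≤ 1)
    (hR : 0 ≤ R) {x : Euc n} (hx : ‖x‖ ≤ R) : |g x * ⟪v, x⟫| ≤ B * R := by
  rw [abs_mul]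
  exact mul_le_mul (hb x hx) (abs_inner_ball_le hv hR hx) (abs_nonneg _) ((abs_nonneg _).trans (hb x hx))

lemma cvk_eq (hS : Supp μ R) {g : Euc n → ℝ} (hg : Continuous g) (v θ : Euc n) :
    cvk T μ g v θ = ⟪v, cov T μ g θ⟫ := by
  have := isProb_fib (T := T) hS θ
  have hsf := supp_fib (T := T) hS θ
  rw [cov, inner_sub_right, inner_smul_right, ← inner_bary hS,
    ← integral_inner (f := fun x => g x • x) (hsf.integrable (by fun_prop))]
  simp only [cvk, av, inner_smul_right]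

lemma d1_cvk (hS : Supp μ R) {g : Euc n → ℝ} (hg : Continuous g) (v : Euc n) :
    D1 (cvk T μ g v) (cgrad T μ g v) := by
  refine ⟨fun θ => ?_, ?_⟩
  · have h := (hasFDerivAt_av (T := T) hS (g := fun x => g x * ⟪v, x⟫) (by fun_prop) θ).fun_sub
      ((hasFDerivAt_av (T := T) hS hg θ).fun_mul (hasFDerivAt_av (T := T) hS (g := fun x => ⟪v, x⟫) (by fun_prop) θ))
    refine h.congr_fderiv ?_
    simp only [cgrad, map_sub, map_add, map_smul]
  · exact (continuous_cov hS (by fun_prop)).sub (((continuous_av hS hg).smul (continuous_cov hS (by fun_prop))).add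
      ((continuous_av hS (by fun_prop)).smul (continuous_cov hS hg)))

lemma abs_cvk_le (hS : Supp μ R) (hR : 0 ≤ R) {g : Euc n → ℝ} (hg : Continuous g)
    (hb : ∀ x, ‖x‖ ≤ R → |g x| ≤ B) {v : Euc n} (hv : ‖v‖ ≤ 1) (θ : Euc n) :
    |cvk T μ g v θ| ≤ 2 * B * R := by
  rw [cvk_eq hS hg]
  exact (abs_real_inner_le_norm _ _).trans ((mul_le_mul hv (norm_cov_le hS hR hb θ) (norm_nonneg _) zero_le_one).trans_eq
    (one_mul _))

lemma norm_cgrad_le (hS : Supp μ R) (hR : 0 ≤ R) {g : Euc n → ℝ} (hb : ∀ x, ‖x‖ ≤ R → |g x| ≤ B)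
    {v : Euc n} (hv : ‖v‖ ≤ 1) (θ : Euc n) : ‖cgrad T μ g v θ‖ ≤ 6 * B * R ^ 2 := by
  have hB : 0 ≤ B := (abs_nonneg _).trans (hb 0 (by simpa using hR))
  have h1 := norm_cov_le (T := T) (B := B * R) hS hR (g := fun x => g x * ⟪v, x⟫)
    (fun x hx => abs_mul_inner_ball_le hb hv hR hx) θ
  have h2 : ‖av T μ g θ • cov T μ (fun x => ⟪v, x⟫) θ‖ ≤ B * (2 * R * R) := by
    rw [norm_smul, norm_eq_abs]
    exact mul_le_mul (abs_av_le hS hb θ) (norm_cov_le hS hR (fun x hx => abs_inner_ball_le hv hR hx) θ)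
      (norm_nonneg _) hB
  have h3 : ‖av T μ (fun x => ⟪v, x⟫) θ • cov T μ g θ‖ ≤ R * (2 * B * R) := by
    rw [norm_smul, norm_eq_abs]
    exact mul_le_mul (abs_av_le hS (fun x hx => abs_inner_ball_le hv hR hx) θ) (norm_cov_le hS hR hb θ)
      (norm_nonneg _) hR
  refine (norm_sub_le _ _).trans ((add_le_add h1 ((norm_add_le _ _).trans (add_le_add h2 h3))).trans (le_of_eq ?_))
  ring

lemma lip_av (hS : Supp μ R) (hR : 0 ≤ R) {g : Euc n → ℝ} (hg : Continuous g)
    (hb : ∀ x, ‖x‖ ≤ R → |g x| ≤ B) (θ θ' : Euc n) :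
    |av T μ g θ' - av T μ g θ| ≤ 2 * B * R * ‖θ' - θ‖ :=
  lip_of_grad (hasFDerivAt_av hS hg) (norm_cov_le hS hR hb) θ θ'

/-- The fibre covariance is Lipschitz, uniformly in the time. -/
lemma lip_cov (hS : Supp μ R) (hR : 0 ≤ R) {g : Euc n → ℝ} (hg : Continuous g)
    (hb : ∀ x, ‖x‖ ≤ R → |g x| ≤ B) (θ θ' : Euc n) :
    ‖cov T μ g θ' - cov T μ g θ‖ ≤ 6 * B * R ^ 2 * ‖θ' - θ‖ := by
  set d := cov T μ g θ' - cov T μ g θ with hd
  rcases eq_or_ne d 0 with h0 | h0
  · have : 0 ≤ B := (abs_nonneg _).trans (hb 0 (by simpa using hR))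
    rw [h0, norm_zero]; positivity
  have hu : ‖‖d‖⁻¹ • d‖ ≤ 1 := (norm_smul_inv_norm h0).le
  have h := lip_of_grad (d1_cvk (T := T) hS hg (‖d‖⁻¹ • d)).deriv (norm_cgrad_le hS hR hb hu) θ θ'
  rw [cvk_eq hS hg, cvk_eq hS hg, ← inner_sub_right, ← hd, real_inner_smul_left, real_inner_self_eq_norm_sq,
    sq, inv_mul_cancel_left₀ (norm_ne_zero_iff.2 h0), abs_of_nonneg (norm_nonneg _)] at h
  exact h

lemma lip_smul_cov {a : Euc n → ℝ} {c : Euc n → Euc n} {A C la lc : ℝ} (hA : ∀ θ, |a θ| ≤ A)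
    (hC : ∀ θ, ‖c θ‖ ≤ C) (θ θ' : Euc n) (hla : |a θ' - a θ| ≤ la) (hlc : ‖c θ' - c θ‖ ≤ lc) :
    ‖a θ' • c θ' - a θ • c θ‖ ≤ A * lc + la * C := by
  have e : a θ' • c θ' - a θ • c θ = a θ' • (c θ' - c θ) + (a θ' - a θ) • c θ := by module
  rw [e]
  refine (norm_add_le _ _).trans (add_le_add ?_ ?_)
  · rw [norm_smul, norm_eq_abs]
    exact mul_le_mul (hA θ') hlc (norm_nonneg _) ((abs_nonneg _).trans (hA θ'))
  · rw [norm_smul, norm_eq_abs]
    exact mul_le_mul hla (hC θ) (norm_nonneg _) ((abs_nonneg _).trans hla)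

lemma lip_cgrad (hS : Supp μ R) (hR : 0 ≤ R) {g : Euc n → ℝ} (hg : Continuous g)
    (hb : ∀ x, ‖x‖ ≤ R → |g x| ≤ B) {v : Euc n} (hv : ‖v‖ ≤ 1) (θ θ' : Euc n) :
    ‖cgrad T μ g v θ' - cgrad T μ g v θ‖ ≤ 26 * B * R ^ 3 * ‖θ' - θ‖ := by
  have hbl : ∀ x, ‖x‖ ≤ R → |⟪v, x⟫| ≤ R := fun x hx => abs_inner_ball_le hv hR hx
  have hlc : Continuous fun x : Euc n => ⟪v, x⟫ := by fun_prop
  have h1 := lip_cov (T := T) (B := B * R) hS hR (g := fun x => g x * ⟪v, x⟫) (by fun_prop)
    (fun x hx => abs_mul_inner_ball_le hb hv hR hx) θ θ'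
  have h2 := lip_smul_cov (fun z => abs_av_le (T := T) hS hb z) (fun z => norm_cov_le (T := T) hS hR hbl z) θ θ'
    (lip_av hS hR hg hb θ θ') (lip_cov hS hR hlc hbl θ θ')
  have h3 := lip_smul_cov (fun z => abs_av_le (T := T) hS hbl z) (fun z => norm_cov_le (T := T) hS hR hb z) θ θ'
    (lip_av hS hR hlc hbl θ θ') (lip_cov hS hR hg hb θ θ')
  simp only [cgrad]
  rw [sub_sub_sub_comm, add_sub_add_comm]
  refine (norm_sub_le _ _).trans ((add_le_add h1 ((norm_add_le _ _).trans (add_le_add h2 h3))).trans (le_of_eq ?_))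
  ring

end

/-- Bessel inequality for a Gaussian average: the averaged gradient is bounded by the variance. -/
lemma bessel {f : Euc n → ℝ} {f' : Euc n → Euc n} (hf : D1 f f') {B M L : ℝ} (hB : ∀ z, |f z| ≤ B)
    (hM : ∀ z, ‖f' z‖ ≤ M) (hL0 : 0 ≤ L) (hL : ∀ x y, ‖f' y - f' x‖ ≤ L * ‖y - x‖) (p : Euc n) {b : ℝ}
    (hb : 0 ≤ b) :
    b ^ 2 * ‖∫ G, f' (p + b • G) ∂(gam n)‖ ^ 2
      ≤ (∫ G, f (p + b • G) ^ 2 ∂(gam n)) - (∫ G, f (p + b • G) ∂(gam n)) ^ 2 := by
  set v := ∫ G, f' (p + b • G) ∂(gam n) with hv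
  set F := fun G : Euc n => f (p + b • G) with hF
  set m := ∫ G, F G ∂(gam n) with hm
  have hFc : Continuous F := hf.cont.comp (by fun_prop)
  have hFb : ∀ G, |F G| ≤ B := fun G => hB _
  have iF : Integrable F (gam n) := integrable_gam_bdd hFc hFb
  have iF2 : Integrable (fun G => (F G - m) ^ 2) (gam n) :=
    integrable_gam_bdd (by fun_prop) (B := (B + |m|) ^ 2) fun G => by
      rw [abs_pow]; exact pow_le_pow_left₀ (abs_nonneg _) ((abs_sub _ _).trans (by linarith [hFb G])) 2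
  have hV : ∫ G, (F G - m) ^ 2 ∂(gam n) = (∫ G, F G ^ 2 ∂(gam n)) - m ^ 2 := by
    have i2 : Integrable (fun G => F G ^ 2) (gam n) := integrable_gam_bdd (hFc.pow 2) (B := B ^ 2) fun G => by
      rw [abs_pow]; exact pow_le_pow_left₀ (abs_nonneg _) (hFb G) 2
    have e : ∀ G, (F G - m) ^ 2 = F G ^ 2 - (2 * m) * F G + m ^ 2 := fun G => by ring
    rw [integral_congr_ae (Eventually.of_forall e),
      integral_add (f := fun G => F G ^ 2 - (2 * m) * F G) (i2.sub (iF.const_mul _)) (integrable_const _),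
      integral_sub i2 (iF.const_mul _), integral_const_mul, integral_const, probReal_univ, one_smul, ← hm]
    ring
  set V := ∫ G, (F G - m) ^ 2 ∂(gam n) with hVdef
  have hV0 : 0 ≤ V := integral_nonneg fun G => sq_nonneg _
  have key : ∀ ε : ℝ, 0 < ε → b * ‖v‖ ^ 2 * (1 - L * b * ε) ≤ √(V * (‖v‖ ^ 2 * exp (ε ^ 2 * ‖v‖ ^ 2))) := by
    intro ε hε
    set c := ε • v with hc
    set w := fun G : Euc n => exp (⟪c, G⟫ - ‖c‖ ^ 2 / 2) with hw
    have hwi : Integrable w (gam n) := by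
      refine ((expInt_gam (n := n) ‖c‖).mono' (by fun_prop) (Eventually.of_forall fun G => ?_))
      rw [hw, norm_eq_abs, abs_exp, exp_le_exp]
      nlinarith [abs_real_inner_le_norm c G, le_abs_self ⟪c, G⟫, sq_nonneg ‖c‖]
    have hw2i : Integrable (fun G => w G ^ 2) (gam n) := by
      refine ((expInt_gam (n := n) (2 * ‖c‖)).mono' (by fun_prop) (Eventually.of_forall fun G => ?_))
      rw [hw, norm_eq_abs, abs_pow, abs_exp, ← exp_nat_mul, exp_le_exp]
      push_cast
      nlinarith [abs_real_inner_le_norm c G, le_abs_self ⟪c, G⟫, sq_nonneg ‖c‖]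
    have hw1 : ∫ G, w G ∂(gam n) = 1 := by
      simp only [hw, exp_sub]; rw [integral_div, integral_gam_exp_inner, div_self (exp_pos _).ne']
    have hw2 : ∫ G, w G ^ 2 ∂(gam n) = exp (‖c‖ ^ 2) := by
      have e : ∀ G, w G ^ 2 = exp ⟪(2:ℝ) • c, G⟫ / exp (‖c‖ ^ 2) := fun G => by
        rw [hw, ← exp_nat_mul, ← exp_sub, real_inner_smul_left c G (2:ℝ)]; push_cast; ring_nf
      rw [integral_congr_ae (Eventually.of_forall e), integral_div, integral_gam_exp_inner, ← exp_sub,
        norm_smul, norm_eq_abs, abs_two]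
      ring_nf
    have hcs := cs_integral (μ := gam n) (f := fun G => F G - m) (g := fun G => w G - 1) iF2 (by
        have e : ∀ G, (w G - 1) ^ 2 = w G ^ 2 - 2 * w G + 1 := fun G => by ring
        simp only [e]; exact (hw2i.sub (hwi.const_mul 2)).add (integrable_const _)) (by
        refine (hwi.sub (integrable_const 1)).bdd_mul (c := B + |m|) (by fun_prop) (Eventually.of_forall fun G => ?_)
        rw [norm_eq_abs]; exact (abs_sub _ _).trans (by linarith [hFb G]))
    have hshift : ∫ G, F (G + c) ∂(gam n) = ∫ G, w G * F G ∂(gam n) := by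
      simpa only [smul_eq_mul] using integral_gam_shift F c
    have iwF : Integrable (fun G => w G * F G) (gam n) :=
      hwi.mul_bdd (c := B) hFc.aestronglyMeasurable (Eventually.of_forall fun G => hFb G)
    have e1 : ∫ G, (F G - m) * (w G - 1) ∂(gam n) = (∫ G, F (G + c) ∂(gam n)) - m := by
      have e : ∀ G, (F G - m) * (w G - 1) = w G * F G - F G - m * w G + m := fun G => by ring
      rw [integral_congr_ae (Eventually.of_forall e),
        integral_add (f := fun G => w G * F G - F G - m * w G) ((iwF.sub iF).sub (hwi.const_mul m)) (integrable_const _),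
        integral_sub (f := fun G => w G * F G - F G) (iwF.sub iF) (hwi.const_mul m), integral_sub iwF iF,
        integral_const_mul, hw1, ← hshift, integral_const, probReal_univ, one_smul, ← hm]
      ring
    have e2 : ∫ G, (w G - 1) ^ 2 ∂(gam n) = exp (‖c‖ ^ 2) - 1 := by
      have e : ∀ G, (w G - 1) ^ 2 = w G ^ 2 - 2 * w G + 1 := fun G => by ring
      rw [integral_congr_ae (Eventually.of_forall e),
        integral_add (f := fun G => w G ^ 2 - 2 * w G) (hw2i.sub (hwi.const_mul 2)) (integrable_const _),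
        integral_sub hw2i (hwi.const_mul 2), integral_const_mul, hw1, hw2, integral_const, probReal_univ, one_smul]
      ring
    rw [e1, e2, ← hVdef] at hcs
    have hexp : exp (‖c‖ ^ 2) - 1 ≤ ε ^ 2 * (‖v‖ ^ 2 * exp (ε ^ 2 * ‖v‖ ^ 2)) := by
      have := (le_abs_self _).trans (Vale.Agent.P245.abs_exp_sub_one_le' (‖c‖ ^ 2))
      rw [abs_of_nonneg (sq_nonneg _)] at this
      rw [hc, norm_smul, norm_eq_abs, mul_pow, sq_abs] at this ⊢
      linarith
    have hup : |(∫ G, F (G + c) ∂(gam n)) - m| ≤ ε * √(V * (‖v‖ ^ 2 * exp (ε ^ 2 * ‖v‖ ^ 2))) := by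
      rw [← sqrt_sq hε.le, ← sqrt_mul (sq_nonneg ε), sqrt_sq hε.le, ← sqrt_sq_eq_abs]
      refine sqrt_le_sqrt (hcs.trans ((mul_le_mul_of_nonneg_left hexp hV0).trans (le_of_eq ?_)))
      ring
    have iFc : Integrable (fun G => F (G + c)) (gam n) := integrable_gam_bdd (by fun_prop) fun G => hFb _
    have if' : Integrable (fun G => f' (p + b • G)) (gam n) :=
      Integrable.of_bound (hf.cont'.comp (by fun_prop)).aestronglyMeasurable M (Eventually.of_forall fun G => hM _)
    have hlow : ∀ G, ε * b * ⟪v, f' (p + b • G)⟫ - L * (ε * b) ^ 2 * ‖v‖ ^ 2 ≤ F (G + c) - F G := fun G => by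
      have h := (abs_le.1 (taylor1 hf.deriv hL0 hL (p + b • G) ((ε * b) • v))).1
      rw [norm_smul, norm_eq_abs, mul_pow, sq_abs, inner_smul_right, real_inner_comm] at h
      have e : p + b • (G + c) = p + b • G + (ε * b) • v := by rw [hc]; module
      simp only [hF, e]
      linarith
    have h := integral_mono (((if'.const_inner v).const_mul (ε * b)).sub (integrable_const _)) (iFc.sub iF) hlow
    simp only [Pi.sub_apply] at h
    rw [integral_sub ((if'.const_inner v).const_mul (ε * b)) (integrable_const _), integral_sub iFc iF,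
      integral_const_mul, integral_inner if', integral_const, probReal_univ, one_smul, ← hv, real_inner_self_eq_norm_sq,
      ← hm] at h
    have h' := h.trans ((le_abs_self _).trans hup)
    refine le_of_mul_le_mul_left (le_trans (le_of_eq ?_) h') hε
    ring
  have hlim : b * ‖v‖ ^ 2 ≤ √(V * ‖v‖ ^ 2) := by
    have t1 : Tendsto (fun k : ℕ => (1:ℝ) / ((k:ℝ) + 1)) atTop (𝓝 0) := tendsto_one_div_add_atTop_nhds_zero_nat
    have c1 : Continuous fun ε : ℝ => b * ‖v‖ ^ 2 * (1 - L * b * ε) := by fun_prop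
    have c2 : Continuous fun ε : ℝ => √(V * (‖v‖ ^ 2 * exp (ε ^ 2 * ‖v‖ ^ 2))) := by fun_prop
    have h := le_of_tendsto_of_tendsto' ((c1.tendsto 0).comp t1) ((c2.tendsto 0).comp t1)
      fun k => key _ (by positivity)
    simpa using h
  change b ^ 2 * ‖v‖ ^ 2 ≤ (∫ G, F G ^ 2 ∂(gam n)) - m ^ 2
  rw [← hV]
  rcases eq_or_ne v 0 with h0 | h0
  · simp [h0, hV0]
  have h2 : 0 < ‖v‖ ^ 2 := by positivity
  have h3 := pow_le_pow_left₀ (by positivity) hlim 2
  rw [sq_sqrt (by positivity)] at h3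
  refine le_of_mul_le_mul_right (le_trans (le_of_eq ?_) h3) h2
  ring

/-- Derivative of a Gaussian average with respect to the base point. -/
lemma d1_gint {F : Euc n → ℝ} {F' : Euc n → Euc n} (hF : D1 F F') {B M : ℝ} (hB : ∀ z, |F z| ≤ B)
    (hM : ∀ z, ‖F' z‖ ≤ M) (θ : Euc n) (s : ℝ) :
    D1 (fun x => ∫ G, F (θ + pt s x G) ∂(gam n)) (fun x => s ^ 2 • ∫ G, F' (θ + pt s x G) ∂(gam n)) := by
  have hpc : Continuous fun p : Euc n × Euc n => θ + pt s p.1 p.2 := by unfold pt; fun_prop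
  refine ⟨fun x => ?_, ?_⟩
  · have hd : ∀ G y, HasFDerivAt (fun y => F (θ + pt s y G)) (innerSL ℝ (s ^ 2 • F' (θ + pt s y G))) y := fun G y => by
      have h1 : HasFDerivAt (fun y => θ + pt s y G) (s ^ 2 • ContinuousLinearMap.id ℝ (Euc n)) y :=
        (((hasFDerivAt_id y).const_smul (s ^ 2)).add_const _).const_add _
      convert! (hF.deriv _).comp y h1 using 1
      ext v; simp
    have hi : Integrable (fun G => F' (θ + pt s x G)) (gam n) :=
      Integrable.of_bound (hF.cont'.comp (continuous_const.add (continuous_pt s x))).aestronglyMeasurable M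
        (Eventually.of_forall fun G => hM _)
    have := hasFDerivAt_integral_of_dominated_of_fderiv_le (μ := gam n) (F := fun y G => F (θ + pt s y G))
      (F' := fun y G => innerSL ℝ (s ^ 2 • F' (θ + pt s y G))) (bound := fun _ => s ^ 2 * M)
      (s := Metric.ball x 1) (Metric.ball_mem_nhds x one_pos)
      (Eventually.of_forall fun y => (hF.cont.comp (continuous_const.add (continuous_pt s y))).aestronglyMeasurable)
      (integrable_gam_bdd (hF.cont.comp (continuous_const.add (continuous_pt s x))) fun G => hB _)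
      ((innerSL ℝ).continuous.comp ((hF.cont'.comp (continuous_const.add (continuous_pt s x))).const_smul (s ^ 2))).aestronglyMeasurable
      (Eventually.of_forall fun G y _ => by
        rw [innerSL_apply_norm, norm_smul, norm_eq_abs, abs_of_nonneg (sq_nonneg s)]
        exact mul_le_mul_of_nonneg_left (hM _) (sq_nonneg s))
      (integrable_const _) (Eventually.of_forall fun G y _ => hd G y)
    rw [ContinuousLinearMap.integral_comp_comm (innerSL ℝ) (φ := fun G => s ^ 2 • F' (θ + pt s x G)) (hi.smul (s ^ 2)),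
      integral_smul] at this
    exact this
  · have hc : Continuous fun x => ∫ G, F' (θ + pt s x G) ∂(gam n) := continuous_of_dominated (bound := fun _ => M)
      (fun x => (hF.cont'.comp (continuous_const.add (continuous_pt s x))).aestronglyMeasurable)
      (fun x => Eventually.of_forall fun G => hM _) (integrable_const (μ := gam n) M)
      (Eventually.of_forall fun G => hF.cont'.comp (hpc.comp (continuous_id.prodMk (continuous_const (y := G)))))
    exact hc.const_smul (s ^ 2)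

end Vale.Agent.P245N.Lichn
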