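import Vale.Agent.P245N.Lichn.Step

/-!
Growth of the energy of the fibre covariance vector along the time, by iterating the small step.
-/

open MeasureTheory Real Filter Set
open scoped Topology RealInnerProductSpace

namespace Vale.Agent.P245N.Lichn

open Vale.Agent.P245

variable {n : ℕ}

/-- Poincare inequality with constant `C`. -/
def PoinC (μ : Measure (Euc n)) (C : ℝ) : Prop :=
  ∀ (g : Euc n → ℝ) (g' : Euc n → Euc n), D1 g g' →
    ∫ x, (g x - ∫ y, g y ∂μ) ^ 2 ∂μ ≤ C * ∫ x, ‖g' x‖ ^ 2 ∂μ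

/-- Energy of the covariance vector at time `r`, scaled. -/
noncomputable def nrg (r : ℝ) (μ : Measure (Euc n)) (g : Euc n → ℝ) : ℝ :=
  r ^ 2 * ∑ k, elaw r μ (fun θ => cvk r μ g (stdb n k) θ ^ 2)

/-- Squared length of the mean of the covariance vector, scaled. -/
noncomputable def msq (r : ℝ) (μ : Measure (Euc n)) (g : Euc n → ℝ) : ℝ :=
  r ^ 2 * ∑ k, elaw r μ (cvk r μ g (stdb n k)) ^ 2

/-- Error constant of one step. -/
noncomputable def ke (n : ℕ) (B R : ℝ) : ℝ := kpt n B R + n * (8 * B * R * kcl n B R)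

section

variable {μ : Measure (Euc n)} [IsProbabilityMeasure μ] {R B t r h C : ℝ}

omit [IsProbabilityMeasure μ] in
lemma continuous_pt2 (s : ℝ) : Continuous fun z : Euc n × Euc n => pt s z.1 z.2 := by unfold pt; fun_prop

lemma intBdd {P : Measure (Euc n × Euc n)} [IsFiniteMeasure P] {φ : Euc n × Euc n → ℝ} (hφ : Continuous φ) {K : ℝ}
    (hK : ∀ z, |φ z| ≤ K) : Integrable φ P :=
  Integrable.of_bound hφ.aestronglyMeasurable K (Eventually.of_forall hK)

lemma elaw_eq_prod {φ : Euc n → ℝ} (hφ : Continuous φ) {K : ℝ} (hK : ∀ z, |φ z| ≤ K) (r : ℝ) :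
    elaw r μ φ = ∫ z, φ (pt √r z.1 z.2) ∂(μ.prod (gam n)) := by
  rw [integral_prod (fun z : Euc n × Euc n => φ (pt √r z.1 z.2)) (intBdd (hφ.comp (continuous_pt2 √r)) fun z => hK _)]; rfl

/-- One step for the energy. -/
lemma step_nrg (hS : Supp μ R) (hR : 0 ≤ R) (ht : 0 < t) (hμ : IsLC t μ) (hC : 0 ≤ C) (hP : PoinC μ C)
    (hr : 1 ≤ r) (hh : 0 ≤ h) (hh1 : h ≤ 1) {g : Euc n → ℝ} (hg : Continuous g)
    (hb : ∀ x, ‖x‖ ≤ R → |g x| ≤ B) :
    ((r + t) / (r + t + h)) ^ 2 * ∑ k, elaw r μ (fun θ => cvk r μ g (stdb n k) θ ^ 2)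
        + h / (C * r ^ 2 + r) * (∑ k, elaw r μ (fun θ => cvk r μ g (stdb n k) θ ^ 2)
            - ∑ k, elaw r μ (cvk r μ g (stdb n k)) ^ 2)
        - ke n B R * (h * √h)
      ≤ ∑ k, elaw (r + h) μ (fun θ => cvk (r + h) μ g (stdb n k) θ ^ 2) := by
  have hB : 0 ≤ B := (abs_nonneg _).trans (hb 0 (by simpa using hR))
  have hr0 : (0:ℝ) ≤ r := by linarith
  set P := μ.prod (gam n) with hPdef
  set e := fun k => stdb n k with he
  have hv : ∀ k, ‖stdb n k‖ ≤ 1 := fun k => ((stdb n).orthonormal.1 k).le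
  set c := fun k => cvk r μ g (stdb n k) with hc
  set F := fun k => cvk (r + h) μ g (stdb n k) with hF
  set F' := fun k => cgrad (r + h) μ g (stdb n k) with hF'
  have hcc : ∀ k, Continuous (c k) := fun k => (d1_cvk hS hg _).cont
  have hcb : ∀ k z, |c k z| ≤ 2 * B * R := fun k z => abs_cvk_le hS hR hg hb (hv k) z
  have hFd : ∀ k, D1 (F k) (F' k) := fun k => d1_cvk hS hg _
  have hFb : ∀ k z, |F k z| ≤ 2 * B * R := fun k z => abs_cvk_le hS hR hg hb (hv k) z
  have hsq : ∀ {x : ℝ}, |x| ≤ 2 * B * R → |x ^ 2| ≤ (2 * B * R) ^ 2 := fun hx => by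
    rw [abs_pow]; exact pow_le_pow_left₀ (abs_nonneg _) hx 2
  have hF'b : ∀ k z, |‖F' k z‖ ^ 2| ≤ (6 * B * R ^ 2) ^ 2 := fun k z => by
    rw [abs_of_nonneg (sq_nonneg _)]
    exact pow_le_pow_left₀ (norm_nonneg _) (norm_cgrad_le hS hR hb (hv k) z) 2
  have hpc : Continuous fun p : (Euc n × Euc n) × Euc n => p.1.1 + pt √h p.1.2 p.2 := by unfold pt; fun_prop
  set Ψ := fun k θ => ∫ x, ∫ G, F k (θ + pt √h x G) ^ 2 ∂(gam n) ∂(fib r μ θ) with hΨ
  have hΨc : ∀ k, Continuous (Ψ k) := fun k =>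
    continuous_fib_integral (F := fun θ x => ∫ G, F k (θ + pt √h x G) ^ 2 ∂(gam n)) hS
      (continuous_gint (H := fun (p : Euc n × Euc n) G => F k (p.1 + pt √h p.2 G) ^ 2)
        (((hFd k).cont.comp hpc).pow 2) fun _ _ => hsq (hFb k _))
  have hΨb : ∀ k θ, |Ψ k θ| ≤ (2 * B * R) ^ 2 := fun k θ =>
    abs_av_le (T := r) hS (g := fun x => ∫ G, F k (θ + pt √h x G) ^ 2 ∂(gam n))
      (fun x _ => abs_gint_le fun G => hsq (hFb k _)) θ
  have hcomp : ∀ k, elaw (r + h) μ (fun z => F k z ^ 2) = elaw r μ (Ψ k) := fun k =>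
    elaw_comp hS hr0 hh ((hFd k).cont.pow 2) fun z => hsq (hFb k z)
  -- pointwise step
  have h1 : ((r + t) / (r + t + h)) ^ 2 * ∑ k, elaw r μ (fun θ => c k θ ^ 2)
      + h * ∑ k, elaw r μ (fun θ => ‖F' k θ‖ ^ 2) - kpt n B R * (h * √h)
      ≤ ∑ k, elaw r μ (Ψ k) := by
    have q1 : ∀ k, elaw r μ (fun θ => c k θ ^ 2) = ∫ z, c k (pt √r z.1 z.2) ^ 2 ∂P := fun k =>
      elaw_eq_prod (φ := fun θ => c k θ ^ 2) ((hcc k).pow 2) (fun z => hsq (hcb k z)) r
    have q2 : ∀ k, elaw r μ (fun θ => ‖F' k θ‖ ^ 2) = ∫ z, ‖F' k (pt √r z.1 z.2)‖ ^ 2 ∂P := fun k =>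
      elaw_eq_prod (φ := fun θ => ‖F' k θ‖ ^ 2) ((hFd k).cont'.norm.pow 2) (hF'b k) r
    have q3 : ∀ k, elaw r μ (Ψ k) = ∫ z, Ψ k (pt √r z.1 z.2) ∂P := fun k => elaw_eq_prod (hΨc k) (hΨb k) r
    simp only [q1, q2, q3]
    have i1 : ∀ k, Integrable (fun z => c k (pt √r z.1 z.2) ^ 2) P := fun k =>
      intBdd (((hcc k).comp (continuous_pt2 _)).pow 2) fun z => hsq (hcb k _)
    have i2 : ∀ k, Integrable (fun z => ‖F' k (pt √r z.1 z.2)‖ ^ 2) P := fun k =>
      intBdd ((((hFd k).cont').comp (continuous_pt2 _)).norm.pow 2) fun z => hF'b k _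
    have i3 : ∀ k, Integrable (fun z => Ψ k (pt √r z.1 z.2)) P := fun k =>
      intBdd ((hΨc k).comp (continuous_pt2 _)) fun z => hΨb k _
    have s1 := integrable_finsetSum Finset.univ fun k _ => i1 k
    have s2 := integrable_finsetSum Finset.univ fun k _ => i2 k
    rw [← integral_finsetSum _ fun k _ => i1 k, ← integral_finsetSum _ fun k _ => i2 k,
      ← integral_finsetSum _ fun k _ => i3 k, ← integral_const_mul, ← integral_const_mul]
    have h3 := integral_mono (μ := P)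
      (((s1.const_mul (((r + t) / (r + t + h)) ^ 2)).add (s2.const_mul h)).sub (integrable_const (kpt n B R * (h * √h))))
      (integrable_finsetSum Finset.univ fun k _ => i3 k)
      (fun z => step_point hS hR ht hμ hr hh hh1 hg hb (pt √r z.1 z.2))
    simp only [Pi.sub_apply, Pi.add_apply] at h3
    have s12 : Integrable (fun z => ((r + t) / (r + t + h)) ^ 2 * ∑ k, c k (pt √r z.1 z.2) ^ 2
        + h * ∑ k, ‖F' k (pt √r z.1 z.2)‖ ^ 2) P := (s1.const_mul _).add (s2.const_mul h)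
    rw [integral_sub s12 (integrable_const _),
      integral_add (s1.const_mul _) (s2.const_mul h), integral_const, probReal_univ, one_smul] at h3
    exact h3
  -- Poincare under the law at time `r`
  set D := 4 * B * R * (kcl n B R * √h) with hD
  have h2 : ∀ k, elaw r μ (fun θ => c k θ ^ 2) - elaw r μ (c k) ^ 2 - 2 * D
      ≤ (C * r ^ 2 + r) * elaw r μ (fun θ => ‖F' k θ‖ ^ 2) := fun k => by
    have hP0 : Poin (fib 0 μ (0 : Euc n)) R C 0 := by
      intro g g' M hgd _ _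
      rw [fib_zero, zero_mul, add_zero]
      exact hP g g' hgd
    have hv2 := var_point (t := 0) (σ := r) hS hr0 (0 : Euc n) hP0 (hFd k) (B := 2 * B * R) (M := (6 * B * R ^ 2) ^ 2)
      (hFb k) (sq_nonneg _) (fun z => (le_abs_self _).trans (hF'b k z))
    simp only [fib_zero, zero_add, zero_mul, add_zero] at hv2
    have hd : ∀ z, |F k z - c k z| ≤ kcl n B R * √h := fun z => by
      have h4 := (cov_step hS hR ht hμ hr hh hh1 hg hb z).2
      simp only [hF, hc, cvk_eq hS hg, ← inner_sub_right]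
      exact (abs_real_inner_le_norm _ _).trans
        (((mul_le_mul_of_nonneg_right (hv k) (norm_nonneg _)).trans_eq (one_mul _)).trans h4)
    have iF : Integrable (fun z => F k (pt √r z.1 z.2)) P :=
      intBdd ((hFd k).cont.comp (continuous_pt2 _)) fun z => hFb k _
    have ic : Integrable (fun z => c k (pt √r z.1 z.2)) P :=
      intBdd ((hcc k).comp (continuous_pt2 _)) fun z => hcb k _
    have iF2 : Integrable (fun z => F k (pt √r z.1 z.2) ^ 2) P :=
      intBdd (((hFd k).cont.comp (continuous_pt2 _)).pow 2) fun z => hsq (hFb k _)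
    have ic2 : Integrable (fun z => c k (pt √r z.1 z.2) ^ 2) P :=
      intBdd (((hcc k).comp (continuous_pt2 _)).pow 2) fun z => hsq (hcb k _)
    have hk0 : 0 ≤ kcl n B R * √h := (abs_nonneg _).trans (hd 0)
    have hpsq : ∀ {a b : ℝ}, |a| ≤ 2 * B * R → |b| ≤ 2 * B * R → |a - b| ≤ kcl n B R * √h → |a ^ 2 - b ^ 2| ≤ D := by
      intro a b ha hb' hab
      rw [sq_sub_sq, abs_mul, hD]
      exact mul_le_mul ((abs_add_le _ _).trans (by linarith)) hab (abs_nonneg _) (by positivity)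
    have d1 : |elaw r μ (fun z => F k z ^ 2) - elaw r μ (fun z => c k z ^ 2)| ≤ D := by
      rw [elaw_eq_prod (φ := fun z => F k z ^ 2) ((hFd k).cont.pow 2) (fun z => hsq (hFb k z)),
        elaw_eq_prod (φ := fun z => c k z ^ 2) ((hcc k).pow 2) (fun z => hsq (hcb k z)), ← integral_sub iF2 ic2]
      simpa using norm_integral_le_of_norm_le_const (μ := P) (C := D)
        (f := fun z => F k (pt √r z.1 z.2) ^ 2 - c k (pt √r z.1 z.2) ^ 2)
        (Eventually.of_forall fun z => hpsq (hFb k (pt √r z.1 z.2)) (hcb k _) (hd _))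
    have hm : ∀ (φ : Euc n → ℝ), (∀ z, |φ z| ≤ 2 * B * R) → |elaw r μ φ| ≤ 2 * B * R := fun φ hφ => by
      simpa [elaw] using norm_integral_le_of_norm_le_const (μ := μ) (C := 2 * B * R)
        (f := fun x => ∫ G, φ (pt √r x G) ∂(gam n)) (Eventually.of_forall fun x => abs_gint_le fun G => hφ _)
    have d2 : |elaw r μ (F k) ^ 2 - elaw r μ (c k) ^ 2| ≤ D := by
      refine hpsq (hm _ (hFb k)) (hm _ (hcb k)) ?_
      rw [elaw_eq_prod (hFd k).cont (hFb k), elaw_eq_prod (hcc k) (hcb k), ← integral_sub iF ic]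
      simpa using norm_integral_le_of_norm_le_const (μ := P) (C := kcl n B R * √h)
        (f := fun z => F k (pt √r z.1 z.2) - c k (pt √r z.1 z.2))
        (Eventually.of_forall fun z => hd (pt √r z.1 z.2))
    have := abs_le.1 d1
    have := abs_le.1 d2
    simp only [elaw] at *
    linarith
  have hden : 1 ≤ C * r ^ 2 + r := by nlinarith [mul_nonneg hC (sq_nonneg r)]
  have hS2 := Finset.sum_le_sum (s := Finset.univ) fun k (_ : k ∈ Finset.univ) => h2 k
  rw [Finset.sum_sub_distrib, Finset.sum_sub_distrib, Finset.sum_const, Finset.card_univ,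
    Fintype.card_fin, nsmul_eq_mul] at hS2
  rw [← Finset.mul_sum] at hS2
  have h5 := mul_le_mul_of_nonneg_left hS2 (div_nonneg hh (by linarith : 0 ≤ C * r ^ 2 + r))
  rw [← mul_assoc (h / _), div_mul_cancel₀ h (by linarith : C * r ^ 2 + r ≠ 0), mul_sub] at h5
  have hD0 : 0 ≤ (n : ℝ) * (2 * D) := by
    have := mg_nonneg (n := n)
    rw [hD, kcl, dc]; positivity
  have h6 : h / (C * r ^ 2 + r) * (n * (2 * D)) ≤ n * (8 * B * R * kcl n B R) * (h * √h) := by
    refine (mul_le_mul_of_nonneg_right (div_le_self hh hden) hD0).trans (le_of_eq ?_)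
    rw [hD]; ring
  rw [show ∑ k, elaw (r + h) μ (fun θ => cvk (r + h) μ g (stdb n k) θ ^ 2) = ∑ k, elaw r μ (Ψ k) from
    Finset.sum_congr rfl fun k _ => hcomp k]
  rw [ke, add_mul]
  linarith

/-- One step for the scaled energy. -/
lemma step_scaled (hS : Supp μ R) (hR : 0 ≤ R) (ht : 0 < t) (hμ : IsLC t μ) (hC : 0 ≤ C) (hP : PoinC μ C)
    (hr : 1 ≤ r) (hh : 0 ≤ h) (hh1 : h ≤ 1) {g : Euc n → ℝ} (hg : Continuous g)
    (hb : ∀ x, ‖x‖ ≤ R → |g x| ≤ B) {a2 : ℝ} (ha : msq r μ g ≤ a2) :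
    nrg r μ g + 2 * t * h / (r * (r + t + h)) * nrg r μ g
        + h * (r + h) ^ 2 / (r ^ 2 * (C * r ^ 2 + r)) * (nrg r μ g - a2)
        - ke n B R * (r + h) ^ 2 * (h * √h)
      ≤ nrg (r + h) μ g := by
  have h0 := mul_le_mul_of_nonneg_left (step_nrg hS hR ht hμ hC hP hr hh hh1 hg hb) (sq_nonneg (r + h))
  unfold nrg msq at *
  set J := ∑ k, elaw r μ (fun θ => cvk r μ g (stdb n k) θ ^ 2) with hJ
  set M := ∑ k, elaw r μ (cvk r μ g (stdb n k)) ^ 2
  have hJ0 : 0 ≤ J := Finset.sum_nonneg fun k _ => integral_nonneg fun x => integral_nonneg fun G => sq_nonneg _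
  have hr0 : 0 < r := by linarith
  have hden : 0 < C * r ^ 2 + r := by nlinarith [mul_nonneg hC (sq_nonneg r)]
  have hrt : 0 < r + t + h := by linarith
  have e1 : (r + h) ^ 2 * (((r + t) / (r + t + h)) ^ 2 * J)
      = (1 + h * t / (r * (r + t + h))) ^ 2 * (r ^ 2 * J) := by
    field_simp
    ring
  have e2 : h * (r + h) ^ 2 / (r ^ 2 * (C * r ^ 2 + r)) * (r ^ 2 * J - r ^ 2 * M)
      = (r + h) ^ 2 * (h / (C * r ^ 2 + r) * (J - M)) := by
    field_simp
  have h1 : r ^ 2 * J + 2 * t * h / (r * (r + t + h)) * (r ^ 2 * J)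
      ≤ (r + h) ^ 2 * (((r + t) / (r + t + h)) ^ 2 * J) := by
    rw [e1]
    have e3 : (1 + h * t / (r * (r + t + h))) ^ 2 * (r ^ 2 * J) = r ^ 2 * J
        + 2 * t * h / (r * (r + t + h)) * (r ^ 2 * J) + (h * t / (r * (r + t + h))) ^ 2 * (r ^ 2 * J) := by ring
    have : 0 ≤ (h * t / (r * (r + t + h))) ^ 2 * (r ^ 2 * J) := by positivity
    linarith
  have h2 := mul_le_mul_of_nonneg_left (sub_le_sub_left ha (r ^ 2 * J))
    (by positivity : 0 ≤ h * (r + h) ^ 2 / (r ^ 2 * (C * r ^ 2 + r)))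
  rw [e2] at h2
  linarith

lemma coef_down (ht : 0 < t) {s : ℝ} (hs : 0 < s) (hsr : s ≤ r) (hh : 0 ≤ h) :
    2 * t * s / (s + t) * (1 / r - 1 / (r + h)) ≤ 2 * t * h / (r * (r + t + h)) := by
  have hr : 0 < r := hs.trans_le hsr
  have e : 2 * t * s / (s + t) * (1 / r - 1 / (r + h)) = 2 * t * h / r * (s / ((s + t) * (r + h))) := by
    field_simp; ring
  have e2 : 2 * t * h / (r * (r + t + h)) = 2 * t * h / r * (1 / (r + t + h)) := by field_simp
  rw [e, e2]
  refine mul_le_mul_of_nonneg_left ?_ (by positivity)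
  rw [div_le_div_iff₀ (by positivity) (by linarith)]
  nlinarith

lemma coef_var (hC : 0 ≤ C) {s : ℝ} (hs : 0 < s) (hsr : s ≤ r) (hh : 0 ≤ h) :
    1 / (C + 1 / s) * (1 / r - 1 / (r + h)) ≤ h * (r + h) ^ 2 / (r ^ 2 * (C * r ^ 2 + r)) := by
  have hr : 0 < r := hs.trans_le hsr
  have e : 1 / (C + 1 / s) * (1 / r - 1 / (r + h)) = h / r * (1 / ((C + 1 / s) * (r + h))) := by field_simp; ring
  have e2 : h * (r + h) ^ 2 / (r ^ 2 * (C * r ^ 2 + r)) = h / r * ((r + h) ^ 2 / (r ^ 3 * (C + 1 / r))) := by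
    field_simp
  rw [e, e2]
  refine mul_le_mul_of_nonneg_left ?_ (by positivity)
  rw [div_le_div_iff₀ (by positivity) (by positivity), one_mul]
  have h1 : r ^ 3 ≤ (r + h) ^ 3 := pow_le_pow_left₀ hr.le (by linarith) 3
  have h2 : C + 1 / r ≤ C + 1 / s := add_le_add le_rfl (one_div_le_one_div_of_le hs hsr)
  refine (mul_le_mul h1 h2 (by positivity) (by positivity)).trans (le_of_eq (by ring))

lemma coef_var_le (hC : 0 ≤ C) (hr : 1 ≤ r) (hh : 0 ≤ h) (hh1 : h ≤ 1) :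
    h * (r + h) ^ 2 / (r ^ 2 * (C * r ^ 2 + r)) ≤ 4 * h := by
  rw [div_le_iff₀ (by positivity), mul_comm 4 h, mul_assoc]
  refine mul_le_mul_of_nonneg_left ?_ hh
  have h1 : (r + h) ^ 2 ≤ (2 * r) ^ 2 := pow_le_pow_left₀ (by linarith) (by linarith) 2
  have h2 : 1 ≤ C * r ^ 2 + r := by nlinarith [mul_nonneg hC (sq_nonneg r)]
  nlinarith [mul_le_mul_of_nonneg_left h2 (sq_nonneg r)]

lemma ke_nonneg (hB : 0 ≤ B) (hR : 0 ≤ R) : 0 ≤ ke n B R := by
  have := mg_nonneg (n := n)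
  unfold ke kpt kcl dg dc
  positivity

/-- The iteration. -/
lemma iterate_step (hS : Supp μ R) (hR : 0 ≤ R) (ht : 0 < t) (hμ : IsLC t μ) (hC : 0 ≤ C) (hP : PoinC μ C)
    (hh : 0 ≤ h) (hh1 : h ≤ 1)
    {g : Euc n → ℝ} (hg : Continuous g) (hb : ∀ x, ‖x‖ ≤ R → |g x| ≤ B) {s a2 I0 κ e1 : ℝ} {N : ℕ} (hs : 1 ≤ s)
    (ha : ∀ r, s ≤ r → msq r μ g ≤ a2) (hI0 : I0 = nrg s μ g) (hI00 : 0 ≤ I0) (hD0 : a2 ≤ I0)
    (hκ : κ = (I0 - a2) / (C + 1 / s) + 2 * t * s / (s + t) * I0)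
    (he : ∀ r, s ≤ r → r ≤ s + (N : ℝ) * h → ke n B R * (r + h) ^ 2 * (h * √h) ≤ e1) (he0 : 0 ≤ e1) :
    ∀ i : ℕ, i ≤ N → I0 + κ * (1 / s - 1 / (s + (i : ℝ) * h)) - (i : ℝ) * e1 * (1 + (4 + 2 * t) * h) ^ i
      ≤ nrg (s + (i : ℝ) * h) μ g := by
  intro i
  induction i with
  | zero => intro _; simp [hI0]
  | succ i ih =>
    intro hi
    have ih' := ih (Nat.le_of_succ_le hi)
    have hih : (i : ℝ) * h ≤ (N : ℝ) * h :=
      mul_le_mul_of_nonneg_right (by exact_mod_cast (Nat.le_of_succ_le hi)) hh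
    have hih0 : 0 ≤ (i : ℝ) * h := by positivity
    set r := s + (i : ℝ) * h with hr
    have hsr : s ≤ r := by linarith only [hr, hih0]
    have hr1 : 1 ≤ r := hs.trans hsr
    have hr' : s + ((i + 1 : ℕ) : ℝ) * h = r + h := by rw [hr]; push_cast; ring
    rw [hr']
    have hs0 : 0 < s := by linarith only [hs]
    set q := 1 + (4 + 2 * t) * h with hq
    have hq1 : 1 ≤ q := by rw [hq]; exact le_add_of_nonneg_right (by positivity)
    set E := (i : ℝ) * e1 * q ^ i with hE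
    have hE0 : 0 ≤ E := by have : 0 ≤ q := by linarith only [hq1]
                           positivity
    have hstep := step_scaled hS hR ht hμ hC hP hr1 hh hh1 hg hb (ha r hsr)
    have hc10 : 0 ≤ h * (r + h) ^ 2 / (r ^ 2 * (C * r ^ 2 + r)) := by
      have : 0 < r := by linarith only [hr1]
      positivity
    have hrt : 1 ≤ r * (r + t + h) := by
      have := mul_le_mul hr1 (show (1:ℝ) ≤ r + t + h by linarith only [hr1, ht, hh]) zero_le_one (by linarith only [hr1])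
      linarith only [this]
    have hc30 : 0 ≤ 2 * t * h / (r * (r + t + h)) := div_nonneg (by positivity) (by linarith only [hrt])
    have hc1u := coef_var_le (C := C) hC hr1 hh hh1
    have hc3u : 2 * t * h / (r * (r + t + h)) ≤ 2 * t * h := div_le_self (by positivity) hrt
    have hsd : 0 ≤ 1 / s - 1 / r := sub_nonneg.2 (one_div_le_one_div_of_le hs0 hsr)
    have hκ0 : 0 ≤ κ := by
      rw [hκ]
      exact add_nonneg (div_nonneg (by linarith only [hD0]) (by positivity)) (by positivity)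
    have hlow : I0 - E ≤ nrg r μ g := by linarith only [mul_nonneg hκ0 hsd, ih']
    have l1 := mul_le_mul_of_nonneg_left (show I0 - a2 - E ≤ nrg r μ g - a2 by linarith only [hlow]) hc10
    have l2 := mul_le_mul_of_nonneg_left hlow hc30
    have l3 := mul_le_mul_of_nonneg_right (coef_var hC hs0 hsr hh) (show 0 ≤ I0 - a2 by linarith only [hD0])
    have l4 := mul_le_mul_of_nonneg_right (coef_down ht hs0 hsr hh) hI00
    have l5 := mul_le_mul_of_nonneg_right (add_le_add hc1u hc3u) hE0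
    have l6 := he r hsr (by linarith only [hih, hr])
    have l8 : E * q + e1 ≤ ((i + 1 : ℕ) : ℝ) * e1 * q ^ (i + 1) := by
      have h9 : e1 ≤ e1 * q ^ (i + 1) := le_mul_of_one_le_right he0 (one_le_pow₀ hq1)
      have h10 : E * q + e1 * q ^ (i + 1) = ((i + 1 : ℕ) : ℝ) * e1 * q ^ (i + 1) := by
        rw [hE, pow_succ]; push_cast; ring
      linarith only [h9, h10]
    have l9 : E * q = E + (4 * h + 2 * t * h) * E := by rw [hq]; ring
    have l10 : κ * (1 / s - 1 / (r + h)) = κ * (1 / s - 1 / r) + (1 / (C + 1 / s) * (1 / r - 1 / (r + h)) * (I0 - a2)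
        + 2 * t * s / (s + t) * (1 / r - 1 / (r + h)) * I0) := by rw [hκ]; ring
    linarith only [ih', hstep, l1, l2, l3, l4, l5, l6, l8, l9, l10]

/-- The energy grows at least linearly in `-1/r`, by iterating the step. -/
lemma growth (hS : Supp μ R) (hR : 0 ≤ R) (ht : 0 < t) (hμ : IsLC t μ) (hC : 0 ≤ C) (hP : PoinC μ C)
    {g : Euc n → ℝ} (hg : Continuous g) (hb : ∀ x, ‖x‖ ≤ R → |g x| ≤ B) {s L a2 D : ℝ} (hs : 1 ≤ s) (hsL : s ≤ L)
    (ha2 : 0 ≤ a2) (ha : ∀ r, s ≤ r → msq r μ g ≤ a2) (hD : nrg L μ g ≤ D) (hpos : a2 ≤ nrg s μ g) :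
    nrg s μ g + ((nrg s μ g - a2) / (C + 1 / s) + 2 * t * s / (s + t) * nrg s μ g) * (1 / s - 1 / L) ≤ D := by
  set I0 := nrg s μ g with hI0
  set κ := (I0 - a2) / (C + 1 / s) + 2 * t * s / (s + t) * I0 with hκ
  have hB : 0 ≤ B := (abs_nonneg _).trans (hb 0 (by simpa using hR))
  have hk0 := ke_nonneg (n := n) hB hR
  set l := L - s with hl
  have hl0 : 0 ≤ l := by rw [hl]; linarith
  set K := ke n B R * (L + 1) ^ 2 with hK
  have hK0 : 0 ≤ K := by rw [hK]; positivity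
  have key : ∀ m : ℕ, l ≤ (m : ℝ) + 1 →
      I0 + κ * (1 / s - 1 / L) - l * K * exp ((4 + 2 * t) * l) * √(l / ((m : ℝ) + 1)) ≤ D := by
    intro m hm
    have hN0 : (0:ℝ) < ((m + 1 : ℕ) : ℝ) := by positivity
    have hNc : ((m + 1 : ℕ) : ℝ) = (m : ℝ) + 1 := by push_cast; ring
    rw [← hNc] at hm ⊢
    set N := m + 1
    set h := l / (N : ℝ) with hhdef
    have hh : 0 ≤ h := by positivity
    have hh1 : h ≤ 1 := by rw [hhdef, div_le_one hN0]; exact hm
    have hNh : (N : ℝ) * h = l := by rw [hhdef, mul_div_cancel₀ l hN0.ne']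
    have he : ∀ r, s ≤ r → r ≤ s + (N : ℝ) * h → ke n B R * (r + h) ^ 2 * (h * √h) ≤ K * (h * √h) := by
      intro r hr1 hr2
      refine mul_le_mul_of_nonneg_right (mul_le_mul_of_nonneg_left ?_ hk0) (by positivity)
      exact pow_le_pow_left₀ (by linarith) (by linarith) 2
    have hfin := iterate_step hS hR ht hμ hC hP hh hh1 hg hb hs ha rfl (ha2.trans hpos) hpos hκ he (by positivity) N le_rfl
    rw [hNh, show s + l = L by rw [hl]; ring] at hfin
    have hbd : (N : ℝ) * (K * (h * √h)) * (1 + (4 + 2 * t) * h) ^ N ≤ l * K * exp ((4 + 2 * t) * l) * √h := by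
      have e2 : (N : ℝ) * (K * (h * √h)) = l * K * √h := by rw [← hNh]; ring
      have hpw : (1 + (4 + 2 * t) * h) ^ N ≤ exp ((4 + 2 * t) * l) := by
        refine (pow_le_pow_left₀ (by positivity) ((add_comm _ _).trans_le (add_one_le_exp _)) N).trans (le_of_eq ?_)
        rw [← exp_nat_mul, ← hNh]
        congr 1
        ring
      rw [e2]
      exact (mul_le_mul_of_nonneg_left hpw (by positivity)).trans (le_of_eq (by ring))
    linarith only [hfin, hbd, hD]
  have t1 : Tendsto (fun m : ℕ => l / ((m : ℝ) + 1)) atTop (𝓝 0) := by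
    have := (tendsto_one_div_add_atTop_nhds_zero_nat (𝕜 := ℝ)).const_mul l
    simpa [div_eq_mul_inv] using this
  have c1 : Continuous fun x : ℝ => I0 + κ * (1 / s - 1 / L) - l * K * exp ((4 + 2 * t) * l) * √x := by fun_prop
  have t2 : Tendsto (fun m : ℕ => I0 + κ * (1 / s - 1 / L) - l * K * exp ((4 + 2 * t) * l) * √(l / ((m : ℝ) + 1)))
      atTop (𝓝 (I0 + κ * (1 / s - 1 / L))) := by
    have := (c1.tendsto 0).comp t1
    simpa [Function.comp_def] using this
  refine le_of_tendsto t2 ?_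
  exact eventually_atTop.2 ⟨⌈l⌉₊, fun m hm => key m (by
    have h1 := Nat.le_ceil l
    have h2 : (⌈l⌉₊ : ℝ) ≤ m := by exact_mod_cast hm
    linarith)⟩

end

end Vale.Agent.P245N.Lichn
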