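import Vale.Agent.P245N.Lichn.Growth

/-!
The improved Lichnerowicz inequality for strongly log-concave measures:
`C_P ≤ sqrt (‖Cov‖ / t)`.
-/

open MeasureTheory Real Filter Set
open scoped Topology RealInnerProductSpace

namespace Vale.Agent.P245N.Lichn

open Vale.Agent.P245

variable {n : ℕ}

section

variable {μ : Measure (Euc n)} [IsProbabilityMeasure μ] {R B t r C : ℝ}

lemma norm_cov_sq_sum (hS : Supp μ R) {g : Euc n → ℝ} (hg : Continuous g) (r : ℝ) (θ : Euc n) :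
    ∑ k, cvk r μ g (stdb n k) θ ^ 2 = ‖cov r μ g θ‖ ^ 2 := by
  rw [norm_sq_eq_sum (stdb n)]
  exact Finset.sum_congr rfl fun k _ => by rw [cvk_eq hS hg]

/-- The energy is at most the Dirichlet energy. -/
lemma nrg_le (hS : Supp μ R) (hR : 0 ≤ R) (ht : 0 < t) (hμ : IsLC t μ) (hr : 0 < r) {g : Euc n → ℝ}
    {g' : Euc n → Euc n} (hg : D1 g g') : nrg r μ g ≤ ∫ x, ‖g' x‖ ^ 2 ∂μ := by
  obtain ⟨B, hB0, hB⟩ := exists_bound hR hg.cont
  obtain ⟨D, hD0, hD⟩ := exists_bound hR (hg.cont'.norm.pow 2)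
  have hv : ∀ k, ‖stdb n k‖ ≤ 1 := fun k => ((stdb n).orthonormal.1 k).le
  have hcc : ∀ k, Continuous fun θ => cvk r μ g (stdb n k) θ ^ 2 := fun k => (d1_cvk hS hg.cont _).cont.pow 2
  have hcb : ∀ k θ, |cvk r μ g (stdb n k) θ ^ 2| ≤ (2 * B * R) ^ 2 := fun k θ => by
    rw [abs_pow]; exact pow_le_pow_left₀ (abs_nonneg _) (abs_cvk_le hS hR hg.cont hB (hv k) θ) 2
  have hA : Continuous (av r μ fun x => ‖g' x‖ ^ 2) := continuous_av hS (hg.cont'.norm.pow 2)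
  have hAb : ∀ θ, |av r μ (fun x => ‖g' x‖ ^ 2) θ| ≤ D := fun θ => abs_av_le hS hD θ
  have hq := integral_qop (μ := μ) (s := √r) hS hR (g := fun x => ‖g' x‖ ^ 2) (hg.cont'.norm.pow 2)
  have e : elaw r μ (av r μ fun x => ‖g' x‖ ^ 2) = ∫ x, ‖g' x‖ ^ 2 ∂μ := by
    rw [← hq]; simp only [elaw, qop, Real.sq_sqrt hr.le]
  rw [nrg, ← e, elaw_eq_prod hA hAb]
  simp only [elaw_eq_prod (hcc _) (hcb _)]
  have i1 : ∀ k, Integrable (fun z => cvk r μ g (stdb n k) (pt √r z.1 z.2) ^ 2) (μ.prod (gam n)) := fun k =>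
    intBdd ((hcc k).comp (continuous_pt2 _)) fun z => hcb k _
  rw [← integral_finsetSum _ fun k _ => i1 k, ← integral_const_mul]
  refine integral_mono ((integrable_finsetSum _ fun k _ => i1 k).const_mul _)
    (intBdd (hA.comp (continuous_pt2 _)) fun z => hAb _) fun z => ?_
  simp only [norm_cov_sq_sum hS hg.cont]
  have h1 := norm_cov_sq_le_slc hS hR hμ (T := r) (by linarith) hg (pt √r z.1 z.2)
  have hA0 : 0 ≤ av r μ (fun x => ‖g' x‖ ^ 2) (pt √r z.1 z.2) := integral_nonneg fun x => sq_nonneg _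
  refine (mul_le_mul_of_nonneg_left h1 (sq_nonneg r)).trans ?_
  rw [← mul_assoc]
  refine mul_le_of_le_one_left hA0 ?_
  rw [mul_one_div, div_le_one (by positivity)]
  exact pow_le_pow_left₀ hr.le (by linarith) 2

lemma inner_qgrad (hS : Supp μ R) (hR : 0 ≤ R) (hr : 0 ≤ r) {g : Euc n → ℝ} (hg : Continuous g) (v x : Euc n) :
    ⟪v, qgrad √r μ g x⟫ = r * ∫ G, cvk r μ g v (pt √r x G) ∂(gam n) := by
  rw [qgrad, inner_smul_right, ← integral_inner (integrable_cov (s := √r) hS hR hg x), Real.sq_sqrt hr]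
  exact congrArg (r * ·) (integral_congr_ae (Eventually.of_forall fun G => (cvk_eq hS hg _ _).symm))

lemma msq_eq (hS : Supp μ R) (hR : 0 ≤ R) (hr : 0 ≤ r) {g : Euc n → ℝ} (hg : Continuous g) :
    msq r μ g = ‖∫ x, qgrad √r μ g x ∂μ‖ ^ 2 := by
  rw [msq, norm_sq_eq_sum (stdb n), Finset.mul_sum]
  refine Finset.sum_congr rfl fun k _ => ?_
  rw [← integral_inner (hS.integrable (continuous_qgrad hS hR hg))]
  simp only [inner_qgrad hS hR hr hg, integral_const_mul, elaw]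
  ring

/-- The gradient energy after one kernel step against the energy at time `r`. -/
lemma up_step (hS : Supp μ R) (hR : 0 ≤ R) (hP : PoinC μ C) (hC : 0 ≤ C) (hr : 0 < r)
    {g : Euc n → ℝ} (hg : Continuous g) :
    (∫ x, ‖qgrad √r μ g x‖ ^ 2 ∂μ) - msq r μ g ≤ C * r * (nrg r μ g - ∫ x, ‖qgrad √r μ g x‖ ^ 2 ∂μ) := by
  obtain ⟨B, hB0, hB⟩ := exists_bound hR hg
  set s := √r with hsdef
  have hs2 : s ^ 2 = r := Real.sq_sqrt hr.le
  have hv : ∀ k, ‖stdb n k‖ ≤ 1 := fun k => ((stdb n).orthonormal.1 k).le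
  have hper : ∀ k, (∫ x, ⟪stdb n k, qgrad s μ g x⟫ ^ 2 ∂μ) - (r * elaw r μ (cvk r μ g (stdb n k))) ^ 2
      ≤ C * r * (r ^ 2 * elaw r μ (fun θ => cvk r μ g (stdb n k) θ ^ 2) - ∫ x, ⟪stdb n k, qgrad s μ g x⟫ ^ 2 ∂μ) := by
    intro k
    set v := stdb n k
    set c := cvk r μ g v with hc
    set c' := cgrad r μ g v with hc'
    have hd : D1 c c' := d1_cvk hS hg v
    have hcb : ∀ z, |c z| ≤ 2 * B * R := fun z => abs_cvk_le hS hR hg hB (hv k) z
    have hc'b : ∀ z, ‖c' z‖ ≤ 6 * B * R ^ 2 := fun z => norm_cgrad_le hS hR hB (hv k) z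
    have hG := d1_gint hd hcb hc'b 0 s
    simp only [zero_add] at hG
    have hw : D1 (fun x => r * ∫ G, c (pt s x G) ∂(gam n)) (fun x => r • (s ^ 2 • ∫ G, c' (pt s x G) ∂(gam n))) :=
      ⟨fun x => ((hG.deriv x).const_mul r).congr_fderiv (map_smul _ _ _).symm, hG.cont'.const_smul r⟩
    have hp := hP _ _ hw
    rw [var_eq hS hw.cont, integral_const_mul] at hp
    have hq : ∀ x, ⟪v, qgrad s μ g x⟫ = r * ∫ G, c (pt s x G) ∂(gam n) := fun x => inner_qgrad hS hR hr.le hg v x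
    simp only [hq]
    have hpc : Continuous fun z : Euc n × Euc n => pt s z.1 z.2 := continuous_pt2 s
    have c1 : Continuous fun x => ∫ G, c (pt s x G) ^ 2 ∂(gam n) :=
      continuous_gint (H := fun x G => c (pt s x G) ^ 2) ((hd.cont.comp hpc).pow 2) (B := (2 * B * R) ^ 2)
        fun x G => by rw [abs_pow]; exact pow_le_pow_left₀ (abs_nonneg _) (hcb _) 2
    have c2 : Continuous fun x => (r * ∫ G, c (pt s x G) ∂(gam n)) ^ 2 := hw.cont.pow 2
    have hb : ∀ x, ‖r • (s ^ 2 • ∫ G, c' (pt s x G) ∂(gam n))‖ ^ 2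
        ≤ r * (r ^ 2 * (∫ G, c (pt s x G) ^ 2 ∂(gam n)) - (r * ∫ G, c (pt s x G) ∂(gam n)) ^ 2) := fun x => by
      have h := bessel hd hcb hc'b (by positivity) (fun a b => lip_cgrad hS hR hg hB (hv k) a b) (s ^ 2 • x)
        (b := s) (sqrt_nonneg r)
      have ep : ∀ G, s ^ 2 • x + s • G = pt s x G := fun G => rfl
      simp only [ep] at h
      rw [hs2] at h
      rw [norm_smul, norm_smul, norm_eq_abs, norm_eq_abs, mul_pow, mul_pow, sq_abs, sq_abs, hs2]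
      calc r ^ 2 * (r ^ 2 * ‖∫ G, c' (pt s x G) ∂(gam n)‖ ^ 2)
          = r ^ 3 * (r * ‖∫ G, c' (pt s x G) ∂(gam n)‖ ^ 2) := by ring
        _ ≤ r ^ 3 * ((∫ G, c (pt s x G) ^ 2 ∂(gam n)) - (∫ G, c (pt s x G) ∂(gam n)) ^ 2) :=
            mul_le_mul_of_nonneg_left h (by positivity)
        _ = _ := by ring
    have h2 := integral_mono (hS.integrable (hw.cont'.norm.pow 2))
      ((((hS.integrable c1).const_mul (r ^ 2)).sub (hS.integrable c2)).const_mul r) hb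
    simp only [Pi.sub_apply] at h2
    rw [integral_const_mul, integral_sub ((hS.integrable c1).const_mul _) (hS.integrable c2), integral_const_mul] at h2
    have h3 := hp.trans (mul_le_mul_of_nonneg_left h2 hC)
    simp only [elaw, ← hsdef]
    linarith
  have hcont : ∀ k, Continuous fun x => ⟪stdb n k, qgrad s μ g x⟫ ^ 2 := fun k =>
    (continuous_const.inner (continuous_qgrad hS hR hg)).pow 2
  have hN : ∫ x, ‖qgrad s μ g x‖ ^ 2 ∂μ = ∑ k, ∫ x, ⟪stdb n k, qgrad s μ g x⟫ ^ 2 ∂μ := by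
    rw [← integral_finsetSum _ fun k _ => hS.integrable (hcont k)]
    exact integral_congr_ae (Eventually.of_forall fun x => norm_sq_eq_sum (stdb n) _)
  have hsum := Finset.sum_le_sum (s := Finset.univ) fun k (_ : k ∈ Finset.univ) => hper k
  simp only [mul_pow] at hsum
  rw [Finset.sum_sub_distrib, ← Finset.mul_sum, ← Finset.mul_sum, Finset.sum_sub_distrib, ← Finset.mul_sum] at hsum
  rw [hN, nrg, msq]
  exact hsum

/-- Facts about the smoothed near-maximiser. -/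
lemma near_max (hS : Supp μ R) (hR : 0 ≤ R) (ht : 0 < t) (hμ : IsLC t μ) (hC : 0 < C) (hP : PoinC μ C)
    (hr : 0 < r) {g : Euc n → ℝ} {g' : Euc n → Euc n} (hg : D1 g g') (hD : ∫ x, ‖g' x‖ ^ 2 ∂μ = 1) {e : ℝ}
    (he : C - e ≤ ∫ x, (g x - ∫ y, g y ∂μ) ^ 2 ∂μ) {a : ℝ}
    (ha : ∀ v : Euc n, ‖v‖ = 1 → ∫ x, (⟪v, x⟫ - ∫ y, ⟪v, y⟫ ∂μ) ^ 2 ∂μ ≤ a) :
    1 - (e + 2 / r) / C ≤ ∫ x, ‖qgrad √r μ g x‖ ^ 2 ∂μ
      ∧ ‖∫ x, qgrad √r μ g x ∂μ‖ ≤ √(a / C) + √((e + 2 / r) / C) := by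
  have hν : IsLC 0 μ := hμ.weaken ht.le
  have hs : 0 < √r := sqrt_pos.2 hr
  set p := qop √r μ g with hp
  set w := qgrad √r μ g with hw
  have hd : D1 p w := ⟨hasFDerivAt_qop hS hR hg.cont, continuous_qgrad hS hR hg.cont⟩
  set V := ∫ x, (p x - ∫ y, p y ∂μ) ^ 2 ∂μ with hV
  set N := ∫ x, ‖w x‖ ^ 2 ∂μ with hN
  have hstep := var_step hS hR hν hs hg
  rw [Real.sq_sqrt hr.le, hD, mul_one] at hstep
  have hPV : V ≤ C * N := hP p w hd
  have hN1 : N ≤ 1 := by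
    rw [← hD, ← integral_qop (s := √r) hS hR (g := fun x => ‖g' x‖ ^ 2) (hg.cont'.norm.pow 2)]
    exact integral_mono (hS.integrable (hd.cont'.norm.pow 2)) (hS.integrable (continuous_qop hS hR (hg.cont'.norm.pow 2)))
      fun x => norm_qgrad_sq_le_qop hS hR hν hs hg x
  have hVlow : C - e - 2 / r ≤ V := by linarith
  refine ⟨?_, ?_⟩
  · rw [sub_le_iff_le_add, div_eq_mul_inv]
    refine le_of_mul_le_mul_left ?_ hC
    rw [mul_add, mul_comm (e + 2 / r), ← mul_assoc C C⁻¹, mul_inv_cancel₀ hC.ne', one_mul, mul_one]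
    linarith
  set M := ∫ x, w x ∂μ with hM
  rcases eq_or_ne M 0 with h0 | h0
  · rw [h0, norm_zero]; positivity
  set u := ‖M‖⁻¹ • M with hu
  have hu1 : ‖u‖ = 1 := norm_smul_inv_norm h0
  set σ := ∫ x, (⟪u, x⟫ - ∫ y, ⟪u, y⟫ ∂μ) ^ 2 ∂μ with hσ
  have hσa : σ ≤ a := ha u hu1
  have hσ0 : 0 ≤ σ := integral_nonneg fun x => sq_nonneg _
  set c1 := ∫ x, (p x - ∫ y, p y ∂μ) * (⟪u, x⟫ - ∫ y, ⟪u, y⟫ ∂μ) ∂μ with hc1
  have hlc : Continuous fun x : Euc n => ⟪u, x⟫ := by fun_prop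
  have i1 : Integrable (fun x => (p x - ∫ y, p y ∂μ) ^ 2) μ := hS.integrable ((hd.cont.sub continuous_const).pow 2)
  have i2 : Integrable (fun x => (⟪u, x⟫ - ∫ y, ⟪u, y⟫ ∂μ) ^ 2) μ := hS.integrable ((hlc.sub continuous_const).pow 2)
  have i3 : Integrable (fun x => (p x - ∫ y, p y ∂μ) * (⟪u, x⟫ - ∫ y, ⟪u, y⟫ ∂μ)) μ :=
    hS.integrable ((hd.cont.sub continuous_const).mul (hlc.sub continuous_const))
  have hcs : c1 ^ 2 ≤ V * σ := cs_integral i1 i2 i3
  have huM : ⟪u, M⟫ = ‖M‖ := by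
    rw [hu, real_inner_smul_left, real_inner_self_eq_norm_sq, sq, inv_mul_cancel_left₀ (norm_ne_zero_iff.2 h0)]
  have hquad : ∀ l : ℝ, 0 ≤ (C - σ) * (l * l) + 2 * (C * ‖M‖ - c1) * l + (C * N - V) := by
    intro l
    have hlin : D1 (fun x => p x + l * ⟪u, x⟫) (fun x => w x + l • u) := by
      refine ⟨fun x => ?_, hd.cont'.add continuous_const⟩
      have h1 : HasFDerivAt (fun x : Euc n => ⟪u, x⟫) (innerSL ℝ u) x := by
        simpa [innerSL_apply_apply] using! (innerSL ℝ u).hasFDerivAt (x := x)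
      exact ((hd.deriv x).fun_add (h1.const_mul l)).congr_fderiv (by rw [map_add, map_smul (innerSL ℝ) l u])
    have h := hP _ _ hlin
    have im : ∫ y, (p y + l * ⟪u, y⟫) ∂μ = (∫ y, p y ∂μ) + l * ∫ y, ⟪u, y⟫ ∂μ := by
      rw [integral_add (hS.integrable hd.cont) ((hS.integrable hlc).const_mul l), integral_const_mul]
    have e1 : ∀ x, (p x + l * ⟪u, x⟫ - ((∫ y, p y ∂μ) + l * ∫ y, ⟪u, y⟫ ∂μ)) ^ 2
        = (p x - ∫ y, p y ∂μ) ^ 2 + (2 * l) * ((p x - ∫ y, p y ∂μ) * (⟪u, x⟫ - ∫ y, ⟪u, y⟫ ∂μ))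
          + (l * l) * (⟪u, x⟫ - ∫ y, ⟪u, y⟫ ∂μ) ^ 2 := fun x => by ring
    have e2 : ∀ x, ‖w x + l • u‖ ^ 2 = ‖w x‖ ^ 2 + (2 * l) * ⟪u, w x⟫ + l * l := fun x => by
      rw [norm_add_sq_real, inner_smul_right, norm_smul, hu1, mul_one, norm_eq_abs, sq_abs, real_inner_comm (w x) u]
      ring
    have iw : Integrable (fun x => ⟪u, w x⟫) μ := (hS.integrable hd.cont').const_inner u
    have iw2 : Integrable (fun x => ‖w x‖ ^ 2) μ := hS.integrable (hd.cont'.norm.pow 2)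
    rw [im, integral_congr_ae (Eventually.of_forall e1), integral_congr_ae (Eventually.of_forall e2),
      integral_add (f := fun x => (p x - ∫ y, p y ∂μ) ^ 2
          + (2 * l) * ((p x - ∫ y, p y ∂μ) * (⟪u, x⟫ - ∫ y, ⟪u, y⟫ ∂μ))) (i1.add (i3.const_mul _)) (i2.const_mul _),
      integral_add i1 (i3.const_mul _), integral_const_mul, integral_const_mul,
      integral_add (f := fun x => ‖w x‖ ^ 2 + (2 * l) * ⟪u, w x⟫) (iw2.add (iw.const_mul _)) (integrable_const _),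
      integral_add iw2 (iw.const_mul _), integral_const_mul, integral_const, probReal_univ, one_smul,
      integral_inner (hS.integrable hd.cont'), ← hM, huM] at h
    linarith
  have hdisc := discrim_le_zero hquad
  rw [discrim] at hdisc
  set Q := e + 2 / r with hQ
  have hQV : C * N - V ≤ Q := by nlinarith [mul_le_mul_of_nonneg_left hN1 hC.le]
  have hQ0 : 0 ≤ C * N - V := by linarith
  have h1 : (C * ‖M‖ - c1) ^ 2 ≤ C * Q := by
    have : (C - σ) * (C * N - V) ≤ C * Q :=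
      (mul_le_mul_of_nonneg_right (by linarith : C - σ ≤ C) hQ0).trans (mul_le_mul_of_nonneg_left hQV hC.le)
    linarith
  have h2 : c1 ≤ √(C * a) := by
    refine (le_abs_self _).trans ?_
    rw [← sqrt_sq_eq_abs]
    refine sqrt_le_sqrt (hcs.trans (mul_le_mul (hPV.trans ?_) hσa hσ0 hC.le))
    exact mul_le_of_le_one_right hC.le hN1
  have h3 : C * ‖M‖ - c1 ≤ √(C * Q) := by
    refine (le_abs_self _).trans ?_
    rw [← sqrt_sq_eq_abs]
    exact sqrt_le_sqrt h1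
  have e3 : ∀ x : ℝ, √(C * x) = C * √(x / C) := fun x => by
    rw [show C * x = C ^ 2 * (x / C) by field_simp, sqrt_mul (sq_nonneg C), sqrt_sq hC.le]
  rw [e3] at h2 h3
  refine le_of_mul_le_mul_left ?_ hC
  rw [mul_add]
  linarith

/-- The inequality between the constants at one large time. -/
lemma core (hS : Supp μ R) (hR : 0 ≤ R) (ht : 0 < t) (hμ : IsLC t μ) (hC : 0 < C) (hP : PoinC μ C)
    (hsup : ∀ e, 0 < e → ∃ g g', D1 g g' ∧ ∫ x, ‖g' x‖ ^ 2 ∂μ = 1 ∧ C - e ≤ ∫ x, (g x - ∫ y, g y ∂μ) ^ 2 ∂μ)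
    {a : ℝ} (ha : ∀ v : Euc n, ‖v‖ = 1 → ∫ x, (⟪v, x⟫ - ∫ y, ⟪v, y⟫ ∂μ) ^ 2 ∂μ ≤ a) {s : ℝ} (hs : 1 ≤ s)
    {x a2 : ℝ} (hx : x = 1 - (1 / s ^ 2 + 2 / s) / C) (ha2 : a2 = (√(a / C) + √((1 / s ^ 2 + 2 / s) / C)) ^ 2)
    (hxa : a2 < x) :
    (x - a2) / (C + 1 / s) + 2 * t * s / (s + t) * x ≤ (1 / s + 2) / C - (x - a2) / C := by
  have hs0 : 0 < s := by linarith
  obtain ⟨g, g', hg, hD, he⟩ := hsup (1 / s ^ 2) (by positivity)
  obtain ⟨B, hB0, hB⟩ := exists_bound hR hg.cont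
  have hmsq : ∀ r, s ≤ r → msq r μ g ≤ a2 := fun r hr => by
    have hr0 : 0 < r := hs0.trans_le hr
    rw [msq_eq hS hR hr0.le hg.cont, ha2]
    refine pow_le_pow_left₀ (norm_nonneg _) ((near_max hS hR ht hμ hC hP hr0 hg hD he ha).2.trans ?_) 2
    gcongr
  set N := ∫ y, ‖qgrad √s μ g y‖ ^ 2 ∂μ with hN
  have hNx : x ≤ N := by rw [hx]; exact (near_max hS hR ht hμ hC hP hs0 hg hD he ha).1
  have hup := up_step hS hR hP hC.le hs0 hg.cont
  set I := nrg s μ g with hI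
  have hm := hmsq s le_rfl
  rw [← hN] at hup
  have hIN : (x - a2) / (C * s) ≤ I - N := by
    rw [div_le_iff₀ (by positivity)]
    linarith
  have hIN0 : 0 ≤ (x - a2) / (C * s) := div_nonneg (by linarith) (by positivity)
  have hxI : x ≤ I := by linarith
  have ha20 : 0 ≤ a2 := by rw [ha2]; positivity
  set κ := (I - a2) / (C + 1 / s) + 2 * t * s / (s + t) * I with hκ
  have hgr : ∀ m : ℕ, I + κ * (1 / s - 1 / (s + (m : ℝ))) ≤ 1 := fun m => by
    have hsm : s ≤ s + (m : ℝ) := le_add_of_nonneg_right (Nat.cast_nonneg m)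
    exact growth hS hR ht hμ hC.le hP hg.cont hB hs hsm ha20 hmsq
      (hD ▸ nrg_le hS hR ht hμ (hs0.trans_le hsm) hg) (by linarith)
  have t0 : Tendsto (fun m : ℕ => (1:ℝ) / (s + (m : ℝ))) atTop (𝓝 0) := by
    simp only [one_div]
    exact tendsto_inv_atTop_zero.comp (tendsto_atTop_add_const_left atTop s tendsto_natCast_atTop_atTop)
  have t1 : Tendsto (fun m : ℕ => I + κ * (1 / s - 1 / (s + (m : ℝ)))) atTop (𝓝 (I + κ * (1 / s - 0))) :=
    ((t0.const_sub (1 / s)).const_mul κ).const_add I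
  have hlim := le_of_tendsto' t1 hgr
  rw [sub_zero, mul_one_div] at hlim
  have h1 : κ ≤ s * (1 - I) := by
    have := (div_le_iff₀ hs0).1 (le_sub_iff_add_le'.2 hlim)
    linarith
  have h2 : s * (1 - I) ≤ (1 / s + 2) / C - (x - a2) / C := by
    have h3 := mul_le_mul_of_nonneg_left (show 1 - I ≤ (1 / s ^ 2 + 2 / s) / C - (x - a2) / (C * s) by
      rw [hx] at hNx; linarith) hs0.le
    refine h3.trans (le_of_eq ?_)
    field_simp
  have h4 : (x - a2) / (C + 1 / s) ≤ (I - a2) / (C + 1 / s) :=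
    div_le_div_of_nonneg_right (by linarith) (by positivity)
  have h5 : 2 * t * s / (s + t) * x ≤ 2 * t * s / (s + t) * I := mul_le_mul_of_nonneg_left hxI (by positivity)
  linarith

/-- Improved Lichnerowicz inequality: a `t`-strongly log-concave probability measure with covariance at most `a`
has Poincare constant at most `sqrt (a / t)`. -/
theorem improved_lichnerowicz (hS : Supp μ R) (hR : 0 ≤ R) (ht : 0 < t) (hμ : IsLC t μ) {a : ℝ} (ha0 : 0 ≤ a)
    (ha : ∀ v : Euc n, ‖v‖ = 1 → ∫ x, (⟪v, x⟫ - ∫ y, ⟪v, y⟫ ∂μ) ^ 2 ∂μ ≤ a) {g : Euc n → ℝ}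
    {g' : Euc n → Euc n} (hg : D1 g g') :
    ∫ x, (g x - ∫ y, g y ∂μ) ^ 2 ∂μ ≤ √(a / t) * ∫ x, ‖g' x‖ ^ 2 ∂μ := by
  set S : Set ℝ := {q | ∃ f f', D1 f f' ∧ ∫ x, ‖f' x‖ ^ 2 ∂μ = 1 ∧ q = ∫ x, (f x - ∫ y, f y ∂μ) ^ 2 ∂μ} with hSdef
  have hub : ∀ q ∈ insert (0:ℝ) S, q ≤ 1 / t := by
    rintro q (rfl | ⟨f, f', hf, hD, rfl⟩)
    · positivity
    · have := poincare_slc ht hμ hS hR hf
      rwa [hD, mul_one] at this
  have hne : (insert (0:ℝ) S).Nonempty := ⟨0, mem_insert _ _⟩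
  have hbd : BddAbove (insert (0:ℝ) S) := ⟨1 / t, hub⟩
  set C := sSup (insert (0:ℝ) S) with hC
  have hC0 : 0 ≤ C := le_csSup hbd (mem_insert _ _)
  have hCt : C ≤ 1 / t := csSup_le hne hub
  have hP : PoinC μ C := by
    intro f f' hf
    have hD0 : 0 ≤ ∫ x, ‖f' x‖ ^ 2 ∂μ := integral_nonneg fun x => sq_nonneg _
    rcases eq_or_lt_of_le hD0 with h | h
    · have := poincare_slc ht hμ hS hR hf
      rw [← h, mul_zero] at this
      rw [← h, mul_zero]
      exact this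
    set D := ∫ x, ‖f' x‖ ^ 2 ∂μ with hD
    set c := (√D)⁻¹ with hc
    have hc2 : c ^ 2 * D = 1 := by rw [hc, inv_pow, sq_sqrt h.le, inv_mul_cancel₀ h.ne']
    have hf2 : D1 (fun x => c * f x) (fun x => c • f' x) :=
      ⟨fun x => ((hf.deriv x).const_mul c).congr_fderiv (map_smul _ _ _).symm, hf.cont'.const_smul c⟩
    have hm : (∫ x, (c * f x - ∫ y, c * f y ∂μ) ^ 2 ∂μ) ∈ insert (0:ℝ) S := by
      refine mem_insert_of_mem _ ⟨_, _, hf2, ?_, rfl⟩
      simp only [norm_smul, mul_pow, norm_eq_abs, sq_abs]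
      rw [integral_const_mul, ← hD, hc2]
    have h1 := le_csSup hbd hm
    simp only [integral_const_mul, ← mul_sub, mul_pow] at h1
    have h2 := mul_le_mul_of_nonneg_left h1 h.le
    rw [← mul_assoc, mul_comm D (c ^ 2), hc2, one_mul] at h2
    linarith
  suffices hmain : C ≤ √(a / t) from
    (hP g g' hg).trans (mul_le_mul_of_nonneg_right hmain (integral_nonneg fun x => sq_nonneg _))
  rcases eq_or_lt_of_le hC0 with h0 | hCpos
  · rw [← h0]; exact sqrt_nonneg _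
  refine Real.le_sqrt_of_sq_le ?_
  rw [le_div_iff₀ ht]
  have hCt' : C * t ≤ 1 := (le_div_iff₀ ht).1 hCt
  rcases le_or_gt C a with hCa | hCa
  · nlinarith
  by_contra hlt
  rw [not_le] at hlt
  have hsup : ∀ e, 0 < e → ∃ f f', D1 f f' ∧ ∫ x, ‖f' x‖ ^ 2 ∂μ = 1
      ∧ C - e ≤ ∫ x, (f x - ∫ y, f y ∂μ) ^ 2 ∂μ := by
    intro e he
    have hmin : 0 < min e C := lt_min he hCpos
    obtain ⟨q, hq, hqlt⟩ := exists_lt_of_lt_csSup hne (show C - min e C < C by linarith)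
    rcases hq with rfl | ⟨f, f', hf, hD, rfl⟩
    · linarith [min_le_right e C]
    · exact ⟨f, f', hf, hD, by linarith [min_le_left e C]⟩
  -- the two sides as functions of `u = 1 / s`
  set X := fun u : ℝ => 1 - (u ^ 2 + 2 * u) / C with hX
  set A := fun u : ℝ => (√(a / C) + √((u ^ 2 + 2 * u) / C)) ^ 2 with hA
  set Φ := fun u : ℝ => (X u - A u) / (C + u) + 2 * t / (1 + t * u) * X u - ((u + 2) / C - (X u - A u) / C) with hΦ
  have hA0 : A 0 = a / C := by simp [hA, sq_sqrt (div_nonneg ha0 hCpos.le)]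
  have hX0 : X 0 = 1 := by simp [hX]
  have cX : ContinuousAt X 0 := by rw [hX]; fun_prop
  have cA : ContinuousAt A 0 := by rw [hA]; fun_prop
  have cΦ : ContinuousAt Φ 0 := by
    have h1 : ContinuousAt (fun u : ℝ => (X u - A u) / (C + u)) 0 :=
      (cX.sub cA).div (continuousAt_const.add continuousAt_id) (by simp [hCpos.ne'])
    have h2 : ContinuousAt (fun u : ℝ => 2 * t / (1 + t * u)) 0 :=
      continuousAt_const.div (by fun_prop) (by simp)
    have h3 : ContinuousAt (fun u : ℝ => (u + 2) / C - (X u - A u) / C) 0 :=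
      ((continuousAt_id.add continuousAt_const).div_const C).sub ((cX.sub cA).div_const C)
    exact (h1.add (h2.mul cX)).sub h3
  have hpos : 0 < Φ 0 := by
    have e : Φ 0 = 2 * (C ^ 2 * t - a) / C ^ 2 := by
      simp only [hΦ, hA0, hX0, add_zero, mul_zero, div_one, mul_one, zero_add]
      field_simp
      ring
    rw [e]
    exact div_pos (by linarith) (by positivity)
  have hgap : A 0 < X 0 := by rw [hA0, hX0, div_lt_one hCpos]; exact hCa
  have t1 : Tendsto (fun k : ℕ => (1:ℝ) / ((k:ℝ) + 1)) atTop (𝓝 0) := tendsto_one_div_add_atTop_nhds_zero_nat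
  obtain ⟨k, hk1, hk2⟩ := ((t1.eventually (cΦ.eventually (eventually_gt_nhds hpos))).and
    (t1.eventually (cA.eventually_lt cX hgap))).exists
  set s := (k : ℝ) + 1 with hsdef
  have hs : 1 ≤ s := le_add_of_nonneg_left (Nat.cast_nonneg k)
  have e : ((1 : ℝ) / s) ^ 2 + 2 * (1 / s) = 1 / s ^ 2 + 2 / s := by ring
  have h := core hS hR ht hμ hCpos hP hsup ha hs (x := X (1 / s)) (a2 := A (1 / s))
    (by simp only [hX, e]) (by simp only [hA, e]) hk2
  have e2 : 2 * t / (1 + t * (1 / s)) = 2 * t * s / (s + t) := by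
    have : (0:ℝ) < s + t := by linarith
    field_simp
  simp only [hΦ, e2] at hk1
  linarith

end

end Vale.Agent.P245N.Lichn
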