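import Vale.Agent.P245N.Lichn.Base

/-!
One small time step for the energy of the fibre covariance vector, without time derivatives.
-/

open MeasureTheory Real Filter Set
open scoped Topology RealInnerProductSpace

namespace Vale.Agent.P245N.Lichn

open Vale.Agent.P245

variable {n : ℕ}

/-- Average of the fibre mean one time step later. -/
noncomputable def smp (r h : ℝ) (μ : Measure (Euc n)) (g : Euc n → ℝ) (θ x : Euc n) : ℝ :=
  ∫ G, av (r + h) μ g (θ + pt √h x G) ∂(gam n)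

/-- Uniform error constant for the values. -/
noncomputable def dc (n : ℕ) (B R : ℝ) : ℝ := 6 * B * R ^ 2 * (R + mg n)

/-- Uniform error constant for the gradients. -/
noncomputable def dg (n : ℕ) (B R : ℝ) : ℝ := 26 * B * R ^ 3 * (R + mg n)

/-- Error constant of one step, pointwise. -/
noncomputable def kpt (n : ℕ) (B R : ℝ) : ℝ :=
  16 * B * R * dc n B R + 4 * dc n B R ^ 2 + n * (12 * B * R ^ 2 * dg n B R)

/-- Error constant for the values at two times. -/
noncomputable def kcl (n : ℕ) (B R : ℝ) : ℝ := 3 * dc n B R + 2 * B * R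

section

variable {μ : Measure (Euc n)} [IsProbabilityMeasure μ] {R B t r h : ℝ}

lemma continuous_inner_cen_aux (θ v : Euc n) : Continuous fun x => ⟪v, cen r μ θ x⟫ := by
  unfold cen; fun_prop

lemma isLC_fib_add (hS : Supp μ R) (hμ : IsLC t μ) (T : ℝ) (θ : Euc n) : IsLC (t + T) (fib T μ θ) := by
  have h := hμ.tilted (κ' := T) (W := fun x => ⟪θ, x⟫ - T / 2 * ‖x‖ ^ 2) (by fun_prop)
    (hS.integrable (by fun_prop)) fun x y a b _ _ hab => by
      have h1 := congrArg (fun t => T / 2 * t) (quad_identity a b hab x y)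
      simp only [inner_add_right, inner_smul_right] at h1 ⊢
      nlinarith
  simpa [fib] using h

/-- Covariance with a function, bounded by its energy on a strongly log-concave fibre. -/
lemma norm_cov_sq_le_slc (hS : Supp μ R) (hR : 0 ≤ R) (hμ : IsLC t μ) {T : ℝ} (hT : 0 < t + T)
    {f : Euc n → ℝ} {f' : Euc n → Euc n} (hf : D1 f f') (θ : Euc n) :
    ‖cov T μ f θ‖ ^ 2 ≤ 1 / (t + T) ^ 2 * av T μ (fun x => ‖f' x‖ ^ 2) θ := by
  have := isProb_fib (T := T) hS θ
  have hsf := supp_fib (T := T) hS θ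
  set w := cov T μ f θ with hw
  have hV := poincare_slc hT (isLC_fib_add hS hμ T θ) hsf hR hf
  have hd : D1 (fun x : Euc n => ⟪w, x⟫) (fun _ => w) :=
    ⟨fun x => by simpa [innerSL_apply_apply] using! (innerSL ℝ w).hasFDerivAt (x := x), continuous_const⟩
  have ha := poincare_slc hT (isLC_fib_add hS hμ T θ) hsf hR hd
  rw [integral_const, probReal_univ, one_smul, inner_bary hS] at ha
  have ha' : aent T μ θ w w ≤ 1 / (t + T) * ‖w‖ ^ 2 :=
    le_trans (le_of_eq (by simp only [aent, cen, inner_sub_right, sq])) ha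
  have h1 := inner_cov_sq_le (t := T) hS hf.cont θ w
  rw [← hw, real_inner_self_eq_norm_sq] at h1
  have hV0 : 0 ≤ ∫ x, (f x - av T μ f θ) ^ 2 ∂(fib T μ θ) := integral_nonneg fun x => sq_nonneg _
  have h2 := h1.trans ((mul_le_mul_of_nonneg_right ha' hV0).trans
    (mul_le_mul_of_nonneg_left hV (by positivity)))
  rcases eq_or_ne w 0 with h0 | h0
  · rw [h0, norm_zero, zero_pow two_ne_zero]
    exact mul_nonneg (by positivity) (integral_nonneg fun x => sq_nonneg _)
  have hw2 : 0 < ‖w‖ ^ 2 := by positivity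
  refine le_of_mul_le_mul_right (le_trans (le_of_eq (sq (‖w‖ ^ 2)).symm) (h2.trans (le_of_eq ?_))) hw2
  simp only [av]
  field_simp

lemma elaw_fib_ball (hS : Supp μ R) (s : ℝ) {H : Euc n → Euc n → ℝ} (hH : Continuous (Function.uncurry H))
    {K : ℝ} (hK : ∀ z y, ‖y‖ ≤ R → |H z y| ≤ K) :
    ∫ x, ∫ G, H (pt s x G) x ∂(gam n) ∂μ = ∫ x, ∫ G, av (s ^ 2) μ (H (pt s x G)) (pt s x G) ∂(gam n) ∂μ := by
  have hcl : ∀ {z y}, ‖y‖ ≤ R → max (-|K|) (min |K| (H z y)) = H z y := fun {z y} hy => by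
    have := abs_le.1 ((hK z y hy).trans (le_abs_self K))
    rw [min_eq_right this.2, max_eq_right this.1]
  have h := elaw_fib (μ := μ) (R := R) hS s (H := fun z y => max (-|K|) (min |K| (H z y)))
    (continuous_const.max (continuous_const.min hH)) (B := |K|) fun z y => by
      rw [abs_le]; exact ⟨le_max_left _ _, max_le (by linarith [abs_nonneg K]) (min_le_left _ _)⟩
  refine Eq.trans ?_ (h.trans ?_)
  · exact integral_congr_ae (hS.mono fun x hx => integral_congr_ae (Eventually.of_forall fun G => (hcl hx).symm))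
  · refine integral_congr_ae (Eventually.of_forall fun x => integral_congr_ae (Eventually.of_forall fun G => ?_))
    exact integral_congr_ae ((supp_fib hS _).mono fun y hy => hcl hy)

lemma tower (hS : Supp μ R) (hR : 0 ≤ R) (hh : 0 ≤ h) {k : Euc n → ℝ} (hk : Continuous k) (θ : Euc n) :
    ∫ x, ∫ G, av (r + h) μ k (θ + pt √h x G) ∂(gam n) ∂(fib r μ θ) = av r μ k θ := by
  have := isProb_fib (T := r) hS θ
  have hq := integral_qop (μ := fib r μ θ) (s := √h) (supp_fib hS θ) hR hk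
  rw [show av r μ k θ = ∫ x, k x ∂(fib r μ θ) from rfl, ← hq]
  refine integral_congr_ae (Eventually.of_forall fun x => integral_congr_ae (Eventually.of_forall fun G => ?_))
  simp only [av, Real.sq_sqrt hh, fib_fib hS]

lemma cvk_tower (hS : Supp μ R) (hR : 0 ≤ R) (hh : 0 ≤ h) {g : Euc n → ℝ} (hg : Continuous g)
    (hb : ∀ x, ‖x‖ ≤ R → |g x| ≤ B) {v : Euc n} (hv : ‖v‖ ≤ 1) (θ : Euc n) :
    cvk r μ g v θ = (∫ x, ∫ G, cvk (r + h) μ g v (θ + pt √h x G) ∂(gam n) ∂(fib r μ θ))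
      + cvk r μ (smp r h μ g θ) v θ := by
  have := isProb_fib (T := r) hS θ
  have hsf := supp_fib (T := r) hS θ
  have hlc : Continuous fun x : Euc n => ⟪v, x⟫ := by fun_prop
  have hpc : Continuous fun p : Euc n × Euc n => θ + pt √h p.1 p.2 := by unfold pt; fun_prop
  set φ := av (r + h) μ g with hφ
  set β := av (r + h) μ (fun x => ⟪v, x⟫) with hβ
  have hφc : Continuous φ := continuous_av hS hg
  have hβc : Continuous β := continuous_av hS hlc
  have hφb : ∀ z, |φ z| ≤ B := fun z => abs_av_le hS hb z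
  have hβb : ∀ z, |β z| ≤ R := fun z => abs_av_le hS (fun x hx => abs_inner_ball_le hv hR hx) z
  have hB : 0 ≤ B := (abs_nonneg _).trans (hφb 0)
  have hmix : ∫ x, smp r h μ g θ x * ⟪v, x⟫ ∂(fib r μ θ)
      = ∫ x, ∫ G, φ (θ + pt √h x G) * β (θ + pt √h x G) ∂(gam n) ∂(fib r μ θ) := by
    have he := elaw_fib_ball (μ := fib r μ θ) hsf √h (H := fun z y => φ (θ + z) * ⟪v, y⟫)
      (K := B * R) (by
        exact (hφc.comp (continuous_const.add continuous_fst)).mul (hlc.comp continuous_snd)) fun z y hy => by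
        rw [abs_mul]; exact mul_le_mul (hφb _) (abs_inner_ball_le hv hR hy) (abs_nonneg _) hB
    refine Eq.trans ?_ (he.trans ?_)
    · refine integral_congr_ae (Eventually.of_forall fun x => ?_)
      simp only [smp, hφ, integral_mul_const]
    · refine integral_congr_ae (Eventually.of_forall fun x => integral_congr_ae (Eventually.of_forall fun G => ?_))
      simp only [av, hβ, Real.sq_sqrt hh, fib_fib hS, integral_const_mul]
  have hT : ∫ x, ∫ G, av (r + h) μ (fun x => g x * ⟪v, x⟫) (θ + pt √h x G) ∂(gam n) ∂(fib r μ θ)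
      = av r μ (fun x => g x * ⟪v, x⟫) θ := tower (r := r) hS hR hh (hg.mul hlc) θ
  have hT2 := tower (r := r) hS hR hh hg θ
  have e : ∀ z, av (r + h) μ (fun x => g x * ⟪v, x⟫) z = cvk (r + h) μ g v z + φ z * β z := fun z => by
    simp only [cvk, hφ, hβ]; ring
  simp only [e] at hT
  have hcc : Continuous (cvk (r + h) μ g v) := (d1_cvk hS hg v).cont
  have hcb : ∀ z, |cvk (r + h) μ g v z| ≤ 2 * B * R := fun z => abs_cvk_le hS hR hg hb hv z
  have hpb : ∀ z, |φ z * β z| ≤ B * R := fun z => by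
    rw [abs_mul]; exact mul_le_mul (hφb z) (hβb z) (abs_nonneg _) hB
  have e2 : ∀ x, ∫ G, (cvk (r + h) μ g v (θ + pt √h x G) + φ (θ + pt √h x G) * β (θ + pt √h x G)) ∂(gam n)
      = (∫ G, cvk (r + h) μ g v (θ + pt √h x G) ∂(gam n)) + ∫ G, φ (θ + pt √h x G) * β (θ + pt √h x G) ∂(gam n) :=
    fun x => integral_add (integrable_gam_bdd (hcc.comp (hpc.comp (continuous_const.prodMk continuous_id))) fun G => hcb _)
      (integrable_gam_bdd ((hφc.mul hβc).comp (hpc.comp (continuous_const.prodMk continuous_id))) fun G => hpb _)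
  simp only [e2] at hT
  rw [integral_add (hsf.integrable (continuous_gint (H := fun x G => cvk (r + h) μ g v (θ + pt √h x G))
      (hcc.comp hpc) fun _ _ => hcb _))
    (hsf.integrable (continuous_gint (H := fun x G => φ (θ + pt √h x G) * β (θ + pt √h x G))
      ((hφc.mul hβc).comp hpc) fun _ _ => hpb _)), ← hmix] at hT
  have h3 : av r μ (smp r h μ g θ) θ = av r μ g θ := hT2
  have h4 : cvk r μ (smp r h μ g θ) v θ
      = (∫ x, smp r h μ g θ x * ⟪v, x⟫ ∂(fib r μ θ)) - av r μ g θ * av r μ (fun x => ⟪v, x⟫) θ := by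
    simp only [cvk, h3]; rfl
  have h5 : cvk r μ g v θ = av r μ (fun x => g x * ⟪v, x⟫) θ - av r μ g θ * av r μ (fun x => ⟪v, x⟫) θ := rfl
  rw [h4, h5]
  linarith

/-- Average of the fibre covariance one time step later. -/
noncomputable def cbar (r h : ℝ) (μ : Measure (Euc n)) (g : Euc n → ℝ) (θ : Euc n) : Euc n :=
  ∫ x, ∫ G, cov (r + h) μ g (θ + pt √h x G) ∂(gam n) ∂(fib r μ θ)

lemma continuous_gint_vec {F : Euc n → Euc n} (hF : Continuous F) {M : ℝ} (hM : ∀ z, ‖F z‖ ≤ M) (θ : Euc n) (s : ℝ) :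
    Continuous fun x => ∫ G, F (θ + pt s x G) ∂(gam n) :=
  continuous_of_dominated (bound := fun _ => M)
    (fun x => (hF.comp (continuous_const.add (continuous_pt s x))).aestronglyMeasurable)
    (fun x => Eventually.of_forall fun G => hM _) (integrable_const (μ := gam n) M)
    (Eventually.of_forall fun G => hF.comp (by unfold pt; fun_prop))

lemma inner_cbar (hS : Supp μ R) (hR : 0 ≤ R) {g : Euc n → ℝ} (hg : Continuous g)
    (hb : ∀ x, ‖x‖ ≤ R → |g x| ≤ B) (θ v : Euc n) :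
    ⟪v, cbar r h μ g θ⟫ = ∫ x, ∫ G, cvk (r + h) μ g v (θ + pt √h x G) ∂(gam n) ∂(fib r μ θ) := by
  have := isProb_fib (T := r) hS θ
  rw [cbar, ← integral_inner ((supp_fib hS θ).integrable
    (continuous_gint_vec (continuous_cov hS hg) (norm_cov_le hS hR hb) θ _))]
  refine integral_congr_ae (Eventually.of_forall fun x => ?_)
  simp only
  rw [← integral_inner]
  · exact integral_congr_ae (Eventually.of_forall fun G => (cvk_eq hS hg _ _).symm)
  · exact Integrable.of_bound ((continuous_cov hS hg).comp (continuous_const.add (continuous_pt _ x))).aestronglyMeasurable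
      (2 * B * R) (Eventually.of_forall fun G => norm_cov_le hS hR hb _)

lemma cov_eq_cbar (hS : Supp μ R) (hR : 0 ≤ R) (hh : 0 ≤ h) {g : Euc n → ℝ} (hg : Continuous g)
    (hb : ∀ x, ‖x‖ ≤ R → |g x| ≤ B) {θ₀ : Euc n} (hsm : Continuous (smp r h μ g θ₀)) :
    cov r μ g θ₀ = cbar r h μ g θ₀ + cov r μ (smp r h μ g θ₀) θ₀ := by
  refine (stdb n).toBasis.ext_elem fun k => ?_
  simp only [OrthonormalBasis.coe_toBasis_repr_apply, OrthonormalBasis.repr_apply_apply, inner_add_right]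
  rw [← cvk_eq hS hg, ← cvk_eq hS hsm, inner_cbar hS hR hg hb,
    cvk_tower hS hR hh hg hb ((stdb n).orthonormal.1 k).le θ₀]

/-- The covariance vector against its average one step later. -/
lemma cov_sub_cbar (hS : Supp μ R) (hR : 0 ≤ R) (ht : 0 < t) (hμ : IsLC t μ) (hr : 1 ≤ r) (hh : 0 ≤ h) (hh1 : h ≤ 1)
    {g : Euc n → ℝ} (hg : Continuous g) (hb : ∀ x, ‖x‖ ≤ R → |g x| ≤ B) (θ : Euc n) :
    ‖cov r μ g θ - cbar r h μ g θ‖ ≤ 2 * dc n B R * (h * √h) + h * (‖cbar r h μ g θ‖ / (t + r))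
      ∧ ‖cbar r h μ g θ - cov (r + h) μ g θ‖ ≤ dc n B R * √h
      ∧ ‖cbar r h μ g θ‖ ≤ 2 * B * R := by
  have := isProb_fib (T := r) hS θ
  have hsf := supp_fib (T := r) hS θ
  have hB : 0 ≤ B := (abs_nonneg _).trans (hb 0 (by simpa using hR))
  have hs1 : √h ≤ 1 := sqrt_le_one.2 hh1
  have hs0 : 0 ≤ √h := sqrt_nonneg h
  set d := dc n B R with hd'
  have hd0 : 0 ≤ d := by have := mg_nonneg (n := n); rw [hd', dc]; positivity
  set cb := cbar r h μ g θ with hcb
  set F := cov (r + h) μ g with hF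
  have hFc : Continuous F := continuous_cov hS hg
  have hFb : ∀ z, ‖F z‖ ≤ 2 * B * R := fun z => norm_cov_le hS hR hb z
  have hnear : ∀ x, ‖x‖ ≤ R → ‖(∫ G, F (θ + pt √h x G) ∂(gam n)) - F θ‖ ≤ d * √h := fun x hx =>
    norm_gint_sub_le hFc hFb (by positivity) (fun a b => lip_cov hS hR hg hb a b) θ hs0 hs1 hR hx
  have hcont := continuous_gint_vec hFc hFb θ √h
  have hcb1 : ‖cb - F θ‖ ≤ d * √h := by
    have e : cb - F θ = ∫ x, ((∫ G, F (θ + pt √h x G) ∂(gam n)) - F θ) ∂(fib r μ θ) := by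
      rw [integral_sub (hsf.integrable hcont) (integrable_const _), integral_const, probReal_univ, one_smul]
      rfl
    rw [e]
    simpa using norm_integral_le_of_norm_le_const (μ := fib r μ θ) (C := d * √h) (hsf.mono hnear)
  have hcb2 : ‖cb‖ ≤ 2 * B * R := by
    rw [hcb, cbar]
    refine (norm_integral_le_of_norm_le_const (μ := fib r μ θ) (C := 2 * B * R) (Eventually.of_forall fun x => ?_)).trans
      (le_of_eq (by simp))
    exact (norm_integral_le_of_norm_le_const (μ := gam n) (C := 2 * B * R) (Eventually.of_forall fun G => hFb _)).trans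
      (le_of_eq (by simp))
  refine ⟨?_, hcb1, hcb2⟩
  have hΦ : D1 (smp r h μ g θ) (fun x => √h ^ 2 • ∫ G, F (θ + pt √h x G) ∂(gam n)) :=
    d1_gint ⟨hasFDerivAt_av hS hg, hFc⟩ (abs_av_le hS hb) hFb θ √h
  have hl : D1 (fun x : Euc n => ⟪cb, x⟫) (fun _ => cb) :=
    ⟨fun x => by simpa [innerSL_apply_apply] using! (innerSL ℝ cb).hasFDerivAt (x := x), continuous_const⟩
  have hf : D1 (fun x => smp r h μ g θ x - h * ⟪cb, x⟫)
      (fun x => h • ((∫ G, F (θ + pt √h x G) ∂(gam n)) - cb)) := by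
    refine ⟨fun x => ?_, (hcont.sub continuous_const).const_smul h⟩
    have h1 := (hΦ.deriv x).fun_sub ((hl.deriv x).const_mul h)
    refine h1.congr_fderiv ?_
    rw [Real.sq_sqrt hh, smul_sub, map_sub, map_smul, map_smul]
  have hT : 0 < t + r := by linarith
  have hcovf : ‖cov r μ (fun x => smp r h μ g θ x - h * ⟪cb, x⟫) θ‖ ≤ 2 * d * (h * √h) := by
    have h1 := norm_cov_sq_le_slc hS hR hμ hT hf θ
    have h2 : av r μ (fun x => ‖h • ((∫ G, F (θ + pt √h x G) ∂(gam n)) - cb)‖ ^ 2) θ ≤ (2 * d * (h * √h)) ^ 2 := by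
      refine (integral_mono_ae (hsf.integrable ((hf.cont'.norm).pow 2)) (integrable_const ((2 * d * (h * √h)) ^ 2))
        (hsf.mono fun x hx => ?_)).trans (le_of_eq (by simp))
      refine pow_le_pow_left₀ (norm_nonneg _) ?_ 2
      rw [norm_smul, norm_eq_abs, abs_of_nonneg hh]
      have h5 := (norm_sub_le_norm_sub_add_norm_sub (∫ G, F (θ + pt √h x G) ∂(gam n)) (F θ) cb).trans
        (add_le_add (hnear x hx) ((norm_sub_rev (F θ) cb).le.trans hcb1))
      exact (mul_le_mul_of_nonneg_left h5 hh).trans (le_of_eq (by ring))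
    have h3 : 1 / (t + r) ^ 2 ≤ 1 := by rw [div_le_one (by positivity)]; nlinarith
    have h4 := (mul_le_of_le_one_left (integral_nonneg fun x => sq_nonneg _) h3).trans h2
    exact (pow_le_pow_iff_left₀ (norm_nonneg _) (by positivity) two_ne_zero).1 (h1.trans h4)
  have hcovl : ‖cov r μ (fun x => ⟪cb, x⟫) θ‖ ≤ ‖cb‖ / (t + r) := by
    have h1 := norm_cov_sq_le_slc hS hR hμ hT hl θ
    rw [av_const hS] at h1
    refine (pow_le_pow_iff_left₀ (norm_nonneg _) (by positivity) two_ne_zero).1 (h1.trans (le_of_eq ?_))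
    field_simp
  have hlin : cov r μ (smp r h μ g θ) θ
      = cov r μ (fun x => smp r h μ g θ x - h * ⟪cb, x⟫) θ + h • cov r μ (fun x => ⟪cb, x⟫) θ := by
    refine ext_inner_left ℝ fun v => ?_
    rw [inner_add_right, inner_smul_right, inner_cov hS hΦ.cont, inner_cov hS hf.cont, inner_cov hS hl.cont,
      ← integral_const_mul]
    have i1 : Integrable (fun x => (smp r h μ g θ x - h * ⟪cb, x⟫) * ⟪v, cen r μ θ x⟫) (fib r μ θ) :=
      hsf.integrable (hf.cont.mul (continuous_inner_cen_aux θ v))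
    have i2 : Integrable (fun x => h * (⟪cb, x⟫ * ⟪v, cen r μ θ x⟫)) (fib r μ θ) :=
      (hsf.integrable (hl.cont.mul (continuous_inner_cen_aux θ v))).const_mul h
    rw [← integral_add i1 i2]
    exact integral_congr_ae (Eventually.of_forall fun x => by ring)
  have hc := cov_eq_cbar (θ₀ := θ) hS hR hh hg hb hΦ.cont
  rw [hlin, ← hcb] at hc
  rw [hc, add_sub_cancel_left]
  refine (norm_add_le _ _).trans (add_le_add hcovf ?_)
  rw [norm_smul, norm_eq_abs, abs_of_nonneg hh]
  exact mul_le_mul_of_nonneg_left hcovl hh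

/-- Comparison of the covariance vector at two nearby times. -/
lemma cov_step (hS : Supp μ R) (hR : 0 ≤ R) (ht : 0 < t) (hμ : IsLC t μ) (hr : 1 ≤ r) (hh : 0 ≤ h) (hh1 : h ≤ 1)
    {g : Euc n → ℝ} (hg : Continuous g) (hb : ∀ x, ‖x‖ ≤ R → |g x| ≤ B) (θ : Euc n) :
    ((r + t) / (r + t + h)) ^ 2 * ‖cov r μ g θ‖ ^ 2 - (16 * B * R * dc n B R + 4 * dc n B R ^ 2) * (h * √h)
        ≤ ‖cbar r h μ g θ‖ ^ 2
      ∧ ‖cov (r + h) μ g θ - cov r μ g θ‖ ≤ kcl n B R * √h := by
  obtain ⟨hdiff, hcb1, hcb2⟩ := cov_sub_cbar hS hR ht hμ hr hh hh1 hg hb θ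
  have hB : 0 ≤ B := (abs_nonneg _).trans (hb 0 (by simpa using hR))
  have hs1 : √h ≤ 1 := sqrt_le_one.2 hh1
  have hs0 : 0 ≤ √h := sqrt_nonneg h
  have hd0 : 0 ≤ dc n B R := by have := mg_nonneg (n := n); rw [dc]; positivity
  set d := dc n B R with hd'
  set cb := cbar r h μ g θ
  set c := cov r μ g θ
  have hh2 : h ≤ √h := by nlinarith [Real.mul_self_sqrt hh]
  refine ⟨?_, ?_⟩
  · have hnorm : ‖c‖ ≤ (r + t + h) / (r + t) * ‖cb‖ + 2 * d * (h * √h) := by
      have h1 := (norm_le_norm_add_norm_sub' c cb).trans (add_le_add le_rfl hdiff)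
      have e : (r + t + h) / (r + t) * ‖cb‖ = ‖cb‖ + h * (‖cb‖ / (t + r)) := by field_simp; ring
      linarith
    set a := (r + t + h) / (r + t) with ha
    have ha1 : 1 ≤ a := by rw [ha, le_div_iff₀ (by linarith)]; linarith
    have ha2 : a ≤ 2 := by rw [ha, div_le_iff₀ (by linarith)]; linarith
    have e : (r + t) / (r + t + h) = a⁻¹ := by rw [ha, inv_div]
    rw [e, inv_pow]
    set p := h * √h with hp
    have hp0 : 0 ≤ p := by positivity
    have hp1 : p ≤ 1 := mul_le_one₀ hh1 hs0 hs1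
    have h2 := pow_le_pow_left₀ (norm_nonneg _) hnorm 2
    have h5 : a * ‖cb‖ ≤ 2 * (2 * B * R) := mul_le_mul ha2 hcb2 (norm_nonneg _) (by norm_num)
    have h6 := mul_le_mul_of_nonneg_right h5 (by positivity : 0 ≤ 4 * d * p)
    have h7 := mul_le_mul_of_nonneg_left (mul_le_of_le_one_left hp0 hp1) (by positivity : 0 ≤ 4 * d ^ 2)
    have hK : 0 ≤ (16 * B * R * d + 4 * d ^ 2) * p := by positivity
    have h4 : ‖c‖ ^ 2 ≤ a ^ 2 * ‖cb‖ ^ 2 + (16 * B * R * d + 4 * d ^ 2) * p := by linarith only [h2, h6, h7]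
    have h8 := mul_le_mul_of_nonneg_right (one_le_pow₀ (n := 2) ha1) hK
    rw [sub_le_iff_le_add, inv_mul_le_iff₀ (by positivity)]
    linarith only [h4, h8]
  · have h1 : ‖cb‖ / (t + r) ≤ 2 * B * R := (div_le_self (norm_nonneg _) (by linarith)).trans hcb2
    have h2 : h * √h ≤ √h := mul_le_of_le_one_left hs0 hh1
    calc ‖cov (r + h) μ g θ - c‖ ≤ ‖cov (r + h) μ g θ - cb‖ + ‖cb - c‖ := norm_sub_le_norm_sub_add_norm_sub _ _ _
      _ ≤ d * √h + (2 * d * (h * √h) + h * (‖cb‖ / (t + r))) := by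
          rw [norm_sub_rev (cov (r + h) μ g θ) cb, norm_sub_rev cb c]; exact add_le_add hcb1 hdiff
      _ ≤ d * √h + (2 * d * √h + √h * (2 * B * R)) := by
          refine add_le_add le_rfl (add_le_add (mul_le_mul_of_nonneg_left h2 (by positivity)) ?_)
          exact mul_le_mul hh2 h1 (by positivity) hs0
      _ = kcl n B R * √h := by rw [kcl, hd']; ring

/-- One step, pointwise in the parameter. -/
lemma step_point (hS : Supp μ R) (hR : 0 ≤ R) (ht : 0 < t) (hμ : IsLC t μ) (hr : 1 ≤ r) (hh : 0 ≤ h) (hh1 : h ≤ 1)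
    {g : Euc n → ℝ} (hg : Continuous g) (hb : ∀ x, ‖x‖ ≤ R → |g x| ≤ B) (θ : Euc n) :
    ((r + t) / (r + t + h)) ^ 2 * ∑ k, cvk r μ g (stdb n k) θ ^ 2
        + h * ∑ k, ‖cgrad (r + h) μ g (stdb n k) θ‖ ^ 2 - kpt n B R * (h * √h)
      ≤ ∑ k, ∫ x, ∫ G, cvk (r + h) μ g (stdb n k) (θ + pt √h x G) ^ 2 ∂(gam n) ∂(fib r μ θ) := by
  have := isProb_fib (T := r) hS θ
  have hsf := supp_fib (T := r) hS θ
  have hB : 0 ≤ B := (abs_nonneg _).trans (hb 0 (by simpa using hR))
  have hs1 : √h ≤ 1 := sqrt_le_one.2 hh1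
  have hs0 : 0 ≤ √h := sqrt_nonneg h
  obtain ⟨h1, -⟩ := cov_step hS hR ht hμ hr hh hh1 hg hb θ
  have hdg : 0 ≤ dg n B R := by have := mg_nonneg (n := n); rw [dg]; positivity
  set E := 12 * B * R ^ 2 * dg n B R with hE
  have hk : ∀ k, ⟪stdb n k, cbar r h μ g θ⟫ ^ 2 + h * ‖cgrad (r + h) μ g (stdb n k) θ‖ ^ 2 - E * (h * √h)
      ≤ ∫ x, ∫ G, cvk (r + h) μ g (stdb n k) (θ + pt √h x G) ^ 2 ∂(gam n) ∂(fib r μ θ) := fun k => by
    set v := stdb n k
    have hv : ‖v‖ ≤ 1 := ((stdb n).orthonormal.1 k).le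
    set F := cvk (r + h) μ g v with hF
    set F' := cgrad (r + h) μ g v with hF'
    have hd : D1 F F' := d1_cvk hS hg v
    have hFb : ∀ z, |F z| ≤ 2 * B * R := fun z => abs_cvk_le hS hR hg hb hv z
    have hF'b : ∀ z, ‖F' z‖ ≤ 6 * B * R ^ 2 := fun z => norm_cgrad_le hS hR hb hv z
    have hF2b : ∀ z, |F z ^ 2| ≤ (2 * B * R) ^ 2 := fun z => by
      rw [abs_pow]; exact pow_le_pow_left₀ (abs_nonneg _) (hFb z) 2
    have hpc : Continuous fun p : Euc n × Euc n => θ + pt √h p.1 p.2 := by unfold pt; fun_prop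
    have c1 := continuous_gint (H := fun x G => F (θ + pt √h x G)) (hd.cont.comp hpc) fun _ _ => hFb _
    have c2 := continuous_gint (H := fun x G => F (θ + pt √h x G) ^ 2) ((hd.cont.comp hpc).pow 2) fun _ _ => hF2b _
    have hx : ∀ x, ‖x‖ ≤ R → (∫ G, F (θ + pt √h x G) ∂(gam n)) ^ 2 + (h * ‖F' θ‖ ^ 2 - E * (h * √h))
        ≤ ∫ G, F (θ + pt √h x G) ^ 2 ∂(gam n) := fun x hx => by
      have hbes := bessel hd hFb hF'b (by positivity) (fun a b => lip_cgrad hS hR hg hb hv a b)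
        (θ + √h ^ 2 • x) (b := √h) hs0
      have ep : ∀ G, θ + √h ^ 2 • x + √h • G = θ + pt √h x G := fun G => by rw [pt, add_assoc]
      simp only [ep] at hbes
      rw [Real.sq_sqrt hh] at hbes
      set u := ∫ G, F' (θ + pt √h x G) ∂(gam n) with hu
      have hn : ‖u - F' θ‖ ≤ dg n B R * √h :=
        norm_gint_sub_le hd.cont' hF'b (by positivity) (fun a b => lip_cgrad hS hR hg hb hv a b) θ hs0 hs1 hR hx
      have hn2 : ‖F' θ‖ ^ 2 - E * √h ≤ ‖u‖ ^ 2 := by
        rcases le_or_gt ‖F' θ‖ ‖u‖ with hle | hlt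
        · have := pow_le_pow_left₀ (norm_nonneg _) hle 2
          have : 0 ≤ E * √h := by positivity
          linarith
        · have h3 : ‖F' θ‖ - ‖u‖ ≤ dg n B R * √h :=
            (norm_sub_norm_le _ _).trans (by rw [norm_sub_rev]; exact hn)
          have h4 := mul_le_mul h3 (add_le_add (hF'b θ) (hlt.le.trans (hF'b θ))) (by positivity) (by positivity)
          rw [hE]
          nlinarith
      have := mul_le_mul_of_nonneg_left hn2 hh
      linarith
    have i1 : Integrable (fun x => (∫ G, F (θ + pt √h x G) ∂(gam n)) ^ 2) (fib r μ θ) := hsf.integrable (c1.pow 2)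
    have hi := integral_mono_ae (i1.add (integrable_const _)) (hsf.integrable c2) (hsf.mono hx)
    simp only [Pi.add_apply] at hi
    rw [integral_add i1 (integrable_const _), integral_const, probReal_univ, one_smul] at hi
    have hj := cs_integral (μ := fib r μ θ) (f := fun x => ∫ G, F (θ + pt √h x G) ∂(gam n)) (g := fun _ => (1:ℝ))
      i1 (integrable_const _) (by simpa using hsf.integrable c1)
    simp only [mul_one, one_pow, integral_const, probReal_univ, one_smul] at hj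
    rw [inner_cbar hS hR hg hb]
    linarith
  have hsum := Finset.sum_le_sum (s := Finset.univ) fun k (_ : k ∈ Finset.univ) => hk k
  rw [Finset.sum_sub_distrib, Finset.sum_add_distrib, ← Finset.mul_sum, Finset.sum_const, Finset.card_univ,
    Fintype.card_fin, nsmul_eq_mul, ← norm_sq_eq_sum (stdb n)] at hsum
  have e : ∑ k, cvk r μ g (stdb n k) θ ^ 2 = ‖cov r μ g θ‖ ^ 2 := by
    rw [norm_sq_eq_sum (stdb n)]
    exact Finset.sum_congr rfl fun k _ => by rw [cvk_eq hS hg]
  rw [e, kpt]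
  linarith

end

end Vale.Agent.P245N.Lichn
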